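import Vale.Agent.P273.H401.Ch1

/-!
# P273, ASY1 (6): the inequalities between the costs and the weights of the legs
-/

noncomputable section

namespace Vale.Agent.P273.H213

open Set Filter Vale.Agent.P273.H95 Vale.Agent.P273.H879 Vale.Agent.P273.H401.Ch1

variable {R : Region1} {m : Fin (R.n + 1)} {p : Co1 R m}

/-! ### the costs -/

theorem sqrt_inv_sq {y : ℝ} (hy : 1 ≤ y) : Real.sqrt y⁻¹ ^ 2 = y⁻¹ :=
  Real.sq_sqrt (inv_nonneg.2 (by linarith))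

theorem cst_u_sq (f : (wr R m).Fr) :
    cst p (.u f) ^ 2 = max (Real.exp (-p.1 f)) (p.2.2.1 ())⁻¹ :=
  Real.sq_sqrt ((Real.exp_pos _).le.trans (le_max_left _ _))

theorem cst_ph_sq (f : (wr R m).Fr) :
    cst p (.ph f) ^ 2 = max (Real.exp (-p.1 f)) (p.2.2.1 ())⁻¹ :=
  Real.sq_sqrt ((Real.exp_pos _).le.trans (le_max_left _ _))

theorem cst_al_sq (hy : 1 ≤ p.2.2.1 ()) (k : Unit) :
    cst p (.al k) ^ 2 = (p.2.2.1 ())⁻¹ := sqrt_inv_sq hy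

theorem cst_le_one (hp : (wr R m).Inr p) (hy : 1 ≤ p.2.2.1 ()) (d : Dir1 R m) :
    cst p d ≤ 1 := by
  have h1 : (p.2.2.1 ())⁻¹ ≤ 1 := inv_le_one_of_one_le₀ hy
  have h2 : ∀ f, Real.sqrt (max (Real.exp (-p.1 f)) (p.2.2.1 ())⁻¹) ≤ 1 := fun f => by
    rw [Real.sqrt_le_one]
    exact max_le (Real.exp_le_one_iff.2 (by linarith [hp.1 f])) h1
  cases d with
  | u f => exact h2 f
  | ph f => exact h2 f
  | y k => exact h1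
  | al k => exact Real.sqrt_le_one.2 h1
  | re c => exact le_rfl
  | im c => exact le_rfl

theorem inv_le_cst (hy : 1 ≤ p.2.2.1 ()) (d : Dir1 R m) : (p.2.2.1 ())⁻¹ ≤ cst p d := by
  have h1 : (p.2.2.1 ())⁻¹ ≤ 1 := inv_le_one_of_one_le₀ hy
  have h0 := inv_le_sqrt_inv hy
  have h2 : ∀ f, (p.2.2.1 ())⁻¹ ≤ Real.sqrt (max (Real.exp (-p.1 f)) (p.2.2.1 ())⁻¹) := fun f =>
    h0.trans (Real.sqrt_le_sqrt (le_max_right _ _))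
  cases d with
  | u f => exact h2 f
  | ph f => exact h2 f
  | y k => exact le_rfl
  | al k => exact h0
  | re c => exact h1
  | im c => exact h1

theorem inv_le_cst_sq (hy : 1 ≤ p.2.2.1 ()) (d : Dir1 R m) (hd : ∀ k, d ≠ .y k) :
    (p.2.2.1 ())⁻¹ ≤ cst p d ^ 2 := by
  have h1 : (p.2.2.1 ())⁻¹ ≤ 1 := inv_le_one_of_one_le₀ hy
  cases d with
  | u f => rw [cst_u_sq]; exact le_max_right _ _
  | ph f => rw [cst_ph_sq]; exact le_max_right _ _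
  | y k => exact absurd rfl (hd k)
  | al k => rw [cst_al_sq hy]
  | re c => show _ ≤ (1 : ℝ) ^ 2; rwa [one_pow]
  | im c => show _ ≤ (1 : ℝ) ^ 2; rwa [one_pow]

theorem cst_sq_le (hp : (wr R m).Inr p) (hy : 1 ≤ p.2.2.1 ()) (d : Dir1 R m) :
    cst p d ^ 2 ≤ cst p d := by
  have h0 := H401.Ch1.cst_nonneg (p := p) (by linarith) d
  have h1 := cst_le_one hp hy d
  nlinarith

/-- all directions except the Euler vector cost at least `y^(-1/2)` -/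
theorem one_le_sqrt_mul_cst (hy : 1 ≤ p.2.2.1 ()) (d : Dir1 R m) (hd : ∀ k, d ≠ .y k) :
    1 ≤ Real.sqrt (p.2.2.1 ()) * cst p d := by
  have hy0 : 0 < p.2.2.1 () := by linarith
  have h0 := H401.Ch1.cst_nonneg (p := p) hy0.le d
  have h1 := Real.sqrt_le_sqrt (inv_le_cst_sq hy d hd)
  rw [Real.sqrt_sq h0] at h1
  calc (1 : ℝ) = Real.sqrt (p.2.2.1 ()) * Real.sqrt (p.2.2.1 ())⁻¹ := by
        rw [← Real.sqrt_mul hy0.le, mul_inv_cancel₀ hy0.ne', Real.sqrt_one]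
    _ ≤ _ := mul_le_mul_of_nonneg_left h1 (Real.sqrt_nonneg _)

theorem inv_sqrt_le_cst (hy : 1 ≤ p.2.2.1 ()) (d : Dir1 R m) (hd : ∀ k, d ≠ .y k) :
    (Real.sqrt (p.2.2.1 ()))⁻¹ ≤ cst p d := by
  have hs : 0 < Real.sqrt (p.2.2.1 ()) := Real.sqrt_pos.2 (by linarith)
  rw [inv_le_iff_one_le_mul₀ hs, mul_comm]
  exact one_le_sqrt_mul_cst hy d hd

theorem inv_le_inv_sqrt_mul_cst (hy : 1 ≤ p.2.2.1 ()) (d : Dir1 R m) (hd : ∀ k, d ≠ .y k) :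
    (p.2.2.1 ())⁻¹ ≤ (Real.sqrt (p.2.2.1 ()))⁻¹ * cst p d := by
  have h1 := inv_sqrt_le_cst hy d hd
  have h0 : 0 ≤ (Real.sqrt (p.2.2.1 ()))⁻¹ := inv_nonneg.2 (Real.sqrt_nonneg _)
  calc (p.2.2.1 ())⁻¹ = (Real.sqrt (p.2.2.1 ()))⁻¹ * (Real.sqrt (p.2.2.1 ()))⁻¹ := by
        rw [← mul_inv, Real.mul_self_sqrt (by linarith)]
    _ ≤ _ := mul_le_mul_of_nonneg_left h1 h0

/-- the square of the length of the Euler leg -/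
theorem inv_sq_le_y (hy : 1 ≤ p.2.2.1 ()) :
    (p.2.2.1 ())⁻¹ ^ 2 ≤ (Real.sqrt (p.2.2.1 ()))⁻¹ * cst p (.y ()) := by
  have h2 : (p.2.2.1 ())⁻¹ ≤ (Real.sqrt (p.2.2.1 ()))⁻¹ := by
    have := inv_le_sqrt_inv hy
    rwa [Real.sqrt_inv] at this
  have h0 : 0 ≤ (p.2.2.1 ())⁻¹ := inv_nonneg.2 (by linarith)
  rw [sq]
  exact mul_le_mul_of_nonneg_right h2 h0

theorem one_le_sqrt_y (hy : 1 ≤ p.2.2.1 ()) : 1 ≤ Real.sqrt (p.2.2.1 ()) :=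
  Real.one_le_sqrt.2 hy

/-! ### the weights of the marks -/

/-- a gap direction, square form -/
theorem wgt_u (hy : 1 ≤ p.2.2.1 ()) {c : ℝ} (hc : 0 < c) {f : (wr R m).Fr} {X l : ℂ}
    (hX : l ≠ 0 → ‖X‖ ≤ c * Real.exp (-p.1 f)) (hl : ‖l‖ ≤ 1) :
    (‖X‖ + (p.2.2.1 ())⁻¹) * ‖l‖ ≤ (1 + c) * max (Real.exp (-p.1 f)) (p.2.2.1 ())⁻¹ := by
  have he := (Real.exp_pos (-p.1 f)).le
  have hi : 0 ≤ (p.2.2.1 ())⁻¹ := inv_nonneg.2 (by linarith)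
  have hm1 := le_max_left (Real.exp (-p.1 f)) (p.2.2.1 ())⁻¹
  have hm2 := le_max_right (Real.exp (-p.1 f)) (p.2.2.1 ())⁻¹
  have hm0 : 0 ≤ max (Real.exp (-p.1 f)) (p.2.2.1 ())⁻¹ := he.trans hm1
  by_cases h : l = 0
  · rw [h, norm_zero, mul_zero]
    positivity
  have h1 := hX h
  have h2 : ‖X‖ + (p.2.2.1 ())⁻¹ ≤ (1 + c) * max (Real.exp (-p.1 f)) (p.2.2.1 ())⁻¹ := by
    have := mul_le_mul_of_nonneg_left hm1 hc.le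
    linarith
  calc (‖X‖ + (p.2.2.1 ())⁻¹) * ‖l‖ ≤ (‖X‖ + (p.2.2.1 ())⁻¹) * 1 :=
        mul_le_mul_of_nonneg_left hl (by positivity)
    _ ≤ _ := by rw [mul_one]; exact h2

theorem wgt_u_sq (hy : 1 ≤ p.2.2.1 ()) {c : ℝ} (hc : 0 < c) {f : (wr R m).Fr} {X l : ℂ}
    (hX : l ≠ 0 → ‖X‖ ≤ c * Real.exp (-p.1 f)) (hl : ‖l‖ ≤ 1) :
    (‖X‖ + (p.2.2.1 ())⁻¹) * ‖l‖ ≤ (1 + c) * cst p (.u f) ^ 2 := by
  rw [cst_u_sq]; exact wgt_u hy hc hX hl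

theorem wgt_ph_sq (hy : 1 ≤ p.2.2.1 ()) {c : ℝ} (hc : 0 < c) {f : (wr R m).Fr} {X l : ℂ}
    (hX : l ≠ 0 → ‖X‖ ≤ c * Real.exp (-p.1 f)) (hl : ‖l‖ ≤ 1) :
    (‖X‖ + (p.2.2.1 ())⁻¹) * ‖l‖ ≤ (1 + c) * cst p (.ph f) ^ 2 := by
  rw [cst_ph_sq]; exact wgt_u hy hc hX hl

/-- the angle of the neck -/
theorem wgt_al_sq (hp : (wr R m).Inr p) (hy : 1 ≤ p.2.2.1 ()) {c : ℝ} (hc : 0 < c) (k : Unit)
    {X l : ℂ} (hX : l ≠ 0 → ‖X‖ ≤ c * Real.exp (-(wr R m).ul p k)) (hl : ‖l‖ ≤ 1) :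
    (‖X‖ + (p.2.2.1 ())⁻¹) * ‖l‖ ≤ (1 + 15 * c) * cst p (.al k) ^ 2 := by
  rw [cst_al_sq hy]
  have hi : 0 ≤ (p.2.2.1 ())⁻¹ := inv_nonneg.2 (by linarith)
  by_cases h : l = 0
  · rw [h, norm_zero, mul_zero]
    positivity
  have h1 := hX h
  have h3 := mul_le_mul_of_nonneg_left (exp_ul_le hp hy) hc.le
  have h2 : ‖X‖ + (p.2.2.1 ())⁻¹ ≤ (1 + 15 * c) * (p.2.2.1 ())⁻¹ := by
    cases k
    linarith
  calc (‖X‖ + (p.2.2.1 ())⁻¹) * ‖l‖ ≤ (‖X‖ + (p.2.2.1 ())⁻¹) * 1 :=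
        mul_le_mul_of_nonneg_left hl (by positivity)
    _ ≤ _ := by rw [mul_one]; exact h2

/-- the Euler leg of a mark at `‖X‖ = c e^(-s)`, `0 ≤ s ≤ y` -/
theorem norm_eul_le (hy : 1 ≤ p.2.2.1 ()) {c : ℝ} (hc : 0 < c) {X : ℂ}
    (h1 : c * Real.exp (-p.2.2.1 ()) ≤ ‖X‖) (h2 : ‖X‖ ≤ c) :
    ‖(((p.2.2.1 ())⁻¹ * Real.log (‖X‖ / c) : ℝ) : ℂ)‖ ≤ 1 := by
  have hy0 : 0 < p.2.2.1 () := by linarith
  have hX0 : 0 < ‖X‖ := lt_of_lt_of_le (by positivity) h1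
  rw [Complex.norm_real, Real.norm_eq_abs, abs_mul, abs_of_pos (inv_pos.2 hy0),
    inv_mul_le_iff₀ hy0, mul_one, abs_le]
  constructor
  · rw [Real.le_log_iff_exp_le (by positivity), le_div_iff₀ hc]
    linarith
  · have : Real.log (‖X‖ / c) ≤ 0 :=
      Real.log_nonpos (by positivity) ((div_le_one hc).2 h2)
    linarith

theorem mul_norm_eul_le (hy : 1 ≤ p.2.2.1 ()) {c : ℝ} (hc : 0 < c) {X : ℂ}
    (h2 : ‖X‖ ≤ c) :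
    ‖X‖ * ‖(((p.2.2.1 ())⁻¹ * Real.log (‖X‖ / c) : ℝ) : ℂ)‖ ≤ c * (p.2.2.1 ())⁻¹ := by
  have hy0 : 0 < p.2.2.1 () := by linarith
  rcases (norm_nonneg X).eq_or_lt with h0 | h0
  · rw [← h0, zero_mul]; positivity
  rw [Complex.norm_real, Real.norm_eq_abs, abs_mul, abs_of_pos (inv_pos.2 hy0)]
  have h3 : |Real.log (‖X‖ / c)| ≤ c / ‖X‖ := by
    have h4 : Real.log (‖X‖ / c) ≤ 0 :=
      Real.log_nonpos (by positivity) ((div_le_one hc).2 h2)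
    rw [abs_of_nonpos h4, ← Real.log_inv, inv_div]
    have := Real.log_le_sub_one_of_pos (x := c / ‖X‖) (by positivity)
    linarith
  calc ‖X‖ * ((p.2.2.1 ())⁻¹ * |Real.log (‖X‖ / c)|)
      ≤ ‖X‖ * ((p.2.2.1 ())⁻¹ * (c / ‖X‖)) := by gcongr
    _ = c * (p.2.2.1 ())⁻¹ := by field_simp

/-- the Euler leg -/
theorem wgt_y (hy : 1 ≤ p.2.2.1 ()) {c : ℝ} (hc : 0 < c) {X : ℂ}
    (h1 : c * Real.exp (-p.2.2.1 ()) ≤ ‖X‖) (h2 : ‖X‖ ≤ c) :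
    (‖X‖ + (p.2.2.1 ())⁻¹) * ‖(((p.2.2.1 ())⁻¹ * Real.log (‖X‖ / c) : ℝ) : ℂ)‖ ≤
      (1 + c) * cst p (.y ()) := by
  have hi : 0 ≤ (p.2.2.1 ())⁻¹ := inv_nonneg.2 (by linarith)
  have h3 := norm_eul_le hy hc h1 h2
  have h4 := mul_norm_eul_le hy hc h2
  have h5 := mul_le_mul_of_nonneg_left h3 hi
  show _ ≤ (1 + c) * (p.2.2.1 ())⁻¹
  rw [add_mul]
  linarith

end Vale.Agent.P273.H213
end
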