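import Vale.Agent.P273.H803.AsyL
import Vale.Agent.P273.H578.CutG
import Vale.Agent.P273.H973.Pol

/-!
# P273, crew ASY0, T2 (C): bounds of the differences of near marks from the fibrewise bounds
-/

open Set Filter Topology Metric
open Vale.Agent.P273.H681 Vale.Agent.P273.H95 Vale.Agent.P273.H562 Vale.Agent.P273.H578
  Vale.Agent.P273.H973 Vale.Agent.P273.H803

noncomputable section

namespace Vale.Agent.P273.H213

/-- the roots of the pair `k` -/
def rk (k : Fin 3) : Fin 6 := ![0, 2, 4] k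

theorem norm_root_sub (y α : Fin 3 → ℝ) (k : Fin 3) :
    ‖rootsL y α (rk k) - H95.ctr k‖ = 1 / 16 * Real.exp (-(y k) / 2) := by
  have e : rootsL y α (rk k) - H95.ctr k =
      -((1 / 16 : ℂ) * Complex.exp ((-(y k : ℂ) + (α k : ℂ) * Complex.I) / 2)) := by
    fin_cases k <;> simp [rootsL, H828.th, rk, H95.ctr] <;> ring
  rw [e, norm_neg, norm_mul, Complex.norm_exp]
  congr 1
  · norm_num
  · congr 1
    simp

theorem exp_le_inv {y : ℝ} (hy : 0 < y) : Real.exp (-y / 2) ≤ 1 / y := by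
  rw [le_div_iff₀ hy]
  have h1 : y / 2 + 1 ≤ Real.exp (y / 2) := Real.add_one_le_exp _
  have h2 : y ≤ Real.exp (y / 2) * 1 := by
    have h3 := Real.quadratic_le_exp_of_nonneg (by positivity : 0 ≤ y / 2)
    nlinarith [sq_nonneg (y / 2 - 1)]
  have h4 : Real.exp (-y / 2) * Real.exp (y / 2) = 1 := by
    rw [← Real.exp_add]; ring_nf; exact Real.exp_zero
  calc Real.exp (-y / 2) * y ≤ Real.exp (-y / 2) * (Real.exp (y / 2) * 1) :=
        mul_le_mul_of_nonneg_left h2 (Real.exp_pos _).le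
    _ = 1 := by rw [mul_one, h4]

/-- the scale at a point, from the distance to a centre -/
theorem Hs_le_ctr {y α : Fin 3 → ℝ} {x : ℂ} (h : Off (rootsL y α) x) (k : Fin 3)
    (hy : 0 < y k) : Hs (rootsL y α) x ≤ ‖x - H95.ctr k‖ + 1 / 16 * (1 / y k) := by
  have h1 := Hs_le h (rk k)
  have h2 := norm_sub_le (x - H95.ctr k) (rootsL y α (rk k) - H95.ctr k)
  rw [sub_sub_sub_cancel_right, norm_root_sub] at h2
  have h3 := exp_le_inv hy
  linarith

theorem on1_of_pt {b : C6} {x v : ℂ} (h : Pt b (x, v)) : On1 false (b, x) v :=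
  ⟨by rw [pol_false]; exact h.1, h.2⟩

/-- the bound of the difference from a bound on the disc -/
theorem abs_del_le (O : One) {b : C6} {ξ : Fin 6 → ℝ} {c A : ℝ} {p q : ℂ × ℂ} (hc : 0 < c)
    (hs : Small (Fin 6) c) (hp : Pt b p) (h : Nr c b p q)
    (hA : ∀ x' v, ‖p.1 - x'‖ < c * Hs b p.1 → Pt b (x', v) → ∀ ζ : ℂ,
      |O.η ξ false (b, x') v (0, ζ)| ≤ A * (‖ζ‖ / Hs b x')) :
    |del (etx O ξ) b p q| ≤ 2 * c * A := by
  have h1 := norm_del_le_vert (η := etx O ξ) hp hc hs h (A := A) fun x' hx' w => by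
    have hc1 : c * Hs b p.1 ≤ Hs b p.1 := by
      have := hs.lt_one
      nlinarith [Hs_pos hp.off]
    have h2 := cont_pt hp (hx'.trans_le hc1)
    have h3 := hA x' _ hx' h2 w
    have h4 : 0 < Hs b x' := Hs_pos h2.off
    rw [Real.norm_eq_abs]
    calc |etx O ξ b x' (cont b p x') (0, w)| * Hs b x' ≤ A * (‖w‖ / Hs b x') * Hs b x' :=
          mul_le_mul_of_nonneg_right h3 h4.le
      _ = A * ‖w‖ := by field_simp
  rwa [Real.norm_eq_abs] at h1

/-- **(C1) the three bounds of the difference of near marks** -/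
theorem exists_del_bound {O : One} (hV : Vert O) : ∃ K N₀ : ℝ, 0 < K ∧ 1 ≤ N₀ ∧
    ∀ y α, BaseOk N₀ y α → ∀ ξ, IsCl ξ → ∀ (c : ℝ) (p q : ℂ × ℂ), 0 < c → c ≤ 1 / 16 →
      Pt (rootsL y α) p → Nr c (rootsL y α) p q →
      |del (etx O ξ) (rootsL y α) p q| ≤ K * ‖ξ‖ ∧
      (∀ k, |del (etx O ξ) (rootsL y α) p q| ≤
        K * (|bt ξ k| + ‖ξ‖ * (1 / y k + ‖p.1 - H95.ctr k‖))) ∧
      ((∀ k, bt ξ k = 0) → |del (etx O ξ) (rootsL y α) p q| ≤ K * ww ξ y) := by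
  obtain ⟨K1, N1, hN1, h1⟩ := hV.v1
  obtain ⟨K2, N2, -, h2⟩ := hV.v2
  obtain ⟨K6, N6, -, h6⟩ := hV.v6
  refine ⟨16 * (|K1| + |K2| + |K6| + 1), max N1 (max N2 N6), by positivity,
    hN1.trans (le_max_left _ _), fun y α hb ξ hξ c p q hc hc1 hp hN => ?_⟩
  have hy1 : ∀ k, 1 ≤ y k := fun k => (hN1.trans (le_max_left _ _)).trans (hb.1 k)
  have hb1 : BaseOk N1 y α := ⟨fun k => (le_max_left _ _).trans (hb.1 k), hb.2⟩
  have hb2 : BaseOk N2 y α :=
    ⟨fun k => ((le_max_left _ _).trans (le_max_right _ _)).trans (hb.1 k), hb.2⟩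
  have hb6 : BaseOk N6 y α :=
    ⟨fun k => ((le_max_right _ _).trans (le_max_right _ _)).trans (hb.1 k), hb.2⟩
  have hs : Small (Fin 6) c := small_six hc.le hc1
  have hξ0 := norm_nonneg ξ
  have a1 := abs_nonneg K1
  have a2 := abs_nonneg K2
  have a6 := abs_nonneg K6
  have hdiv : ∀ (x' ζ : ℂ), 0 ≤ ‖ζ‖ / Hs (rootsL y α) x' := fun x' ζ =>
    div_nonneg (norm_nonneg _) (Hs_nonneg _ _)
  have e1 : |del (etx O ξ) (rootsL y α) p q| ≤ 2 * c * (|K1| * ‖ξ‖) :=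
    abs_del_le O hc hs hp hN fun x' v _ hv ζ => (h1 y α hb1 ξ hξ x' v ζ (on1_of_pt hv)).trans
      (mul_le_mul_of_nonneg_right (mul_le_mul_of_nonneg_right (le_abs_self _) hξ0) (hdiv _ _))
  have e1' : |del (etx O ξ) (rootsL y α) p q| ≤ |K1| * ‖ξ‖ :=
    e1.trans (by nlinarith [mul_nonneg a1 hξ0])
  refine ⟨e1'.trans (by nlinarith [mul_nonneg a1 hξ0, mul_nonneg a2 hξ0, mul_nonneg a6 hξ0]),
    fun k => ?_, fun hbt => ?_⟩
  · have hy := hy1 k
    have hb0 := abs_nonneg (bt ξ k)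
    have hx0 := norm_nonneg (p.1 - H95.ctr k)
    have hy0 : 0 < 1 / y k := by positivity
    have hw : 0 ≤ |bt ξ k| + ‖ξ‖ * (1 / y k + ‖p.1 - H95.ctr k‖) := by positivity
    by_cases hx : ‖p.1 - H95.ctr k‖ ≤ 1 / 8
    · have e2 : |del (etx O ξ) (rootsL y α) p q| ≤
          2 * c * (2 * |K2| * (|bt ξ k| + ‖ξ‖ * (1 / y k + ‖p.1 - H95.ctr k‖))) := by
        refine abs_del_le O hc hs hp hN fun x' v hx' hv ζ => ?_
        have hH := Hs_le_ctr hp.off k (by linarith : 0 < y k)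
        have hy01 : 1 / y k ≤ 1 := by
          rw [div_le_one (by linarith)]; exact hy
        have hd : ‖x' - H95.ctr k‖ ≤ 2 * ‖p.1 - H95.ctr k‖ + 1 / y k ∧
            ‖x' - H95.ctr k‖ ≤ 1 / 4 := by
          have h3 := norm_add_le (x' - p.1) (p.1 - H95.ctr k)
          rw [sub_add_sub_cancel, norm_sub_rev x' p.1] at h3
          have h4 : c * Hs (rootsL y α) p.1 ≤
              1 / 16 * (‖p.1 - H95.ctr k‖ + 1 / 16 * (1 / y k)) := by
            refine mul_le_mul hc1 hH (Hs_nonneg _ _) (by norm_num)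
          constructor <;> linarith
        refine (h2 y α hb2 ξ hξ x' v ζ (on1_of_pt hv) k hd.2).trans
          (mul_le_mul_of_nonneg_right ?_ (hdiv _ _))
        have h5 : |bt ξ k| + ‖ξ‖ * (1 / y k + ‖x' - H95.ctr k‖) ≤
            2 * (|bt ξ k| + ‖ξ‖ * (1 / y k + ‖p.1 - H95.ctr k‖)) := by
          have h6 : 1 / y k + ‖x' - H95.ctr k‖ ≤ 2 * (1 / y k + ‖p.1 - H95.ctr k‖) := by
            linarith [hd.1]
          have := mul_le_mul_of_nonneg_left h6 hξ0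
          linarith
        calc K2 * (|bt ξ k| + ‖ξ‖ * (1 / y k + ‖x' - H95.ctr k‖))
            ≤ |K2| * (|bt ξ k| + ‖ξ‖ * (1 / y k + ‖x' - H95.ctr k‖)) :=
              mul_le_mul_of_nonneg_right (le_abs_self _) (by positivity)
          _ ≤ |K2| * (2 * (|bt ξ k| + ‖ξ‖ * (1 / y k + ‖p.1 - H95.ctr k‖))) :=
              mul_le_mul_of_nonneg_left h5 a2
          _ = _ := by ring
      refine e2.trans ?_
      set w := |bt ξ k| + ‖ξ‖ * (1 / y k + ‖p.1 - H95.ctr k‖) with hwd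
      have h7 : 2 * c * (2 * |K2| * w) = (4 * c) * (|K2| * w) := by ring
      rw [h7]
      have h8 : 0 ≤ |K2| * w := mul_nonneg a2 hw
      nlinarith [mul_nonneg a1 hw, mul_nonneg a6 hw]
    · have hx' : 1 / 8 < ‖p.1 - H95.ctr k‖ := not_le.1 hx
      refine e1'.trans ?_
      have h8 : ‖ξ‖ ≤ 8 * (|bt ξ k| + ‖ξ‖ * (1 / y k + ‖p.1 - H95.ctr k‖)) := by
        have h9 : ‖ξ‖ * (1 / 8) ≤ ‖ξ‖ * (1 / y k + ‖p.1 - H95.ctr k‖) :=
          mul_le_mul_of_nonneg_left (by linarith) hξ0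
        linarith
      have h10 := mul_le_mul_of_nonneg_left h8 a1
      nlinarith [mul_nonneg a2 hw, mul_nonneg a6 hw, mul_nonneg a1 hw]
  · have hw : 0 ≤ ww ξ y := by
      unfold ww
      exact Finset.sum_nonneg fun k _ => div_nonneg (abs_nonneg _) (by linarith [hy1 k])
    have e6 : |del (etx O ξ) (rootsL y α) p q| ≤ 2 * c * (|K6| * ww ξ y) :=
      abs_del_le O hc hs hp hN fun x' v _ hv ζ =>
        (h6 y α hb6 ξ hξ hbt x' v ζ (on1_of_pt hv)).trans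
        (mul_le_mul_of_nonneg_right (mul_le_mul_of_nonneg_right (le_abs_self _) hw) (hdiv _ _))
    refine e6.trans ?_
    nlinarith [mul_nonneg a1 hw, mul_nonneg a2 hw, mul_nonneg a6 hw]

/-- **(C2) partners are comparable** -/
theorem partner {y α : Fin 3 → ℝ} {c : ℝ} {p q : ℂ × ℂ} (hc1 : c ≤ 1 / 16)
    (hp : Off (rootsL y α) p.1) (hN : Nr c (rootsL y α) p q) (k : Fin 3) (hy : 0 < y k) :
    ‖q.1 - H95.ctr k‖ ≤ 2 * ‖p.1 - H95.ctr k‖ + 1 / 16 * (1 / y k) ∧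
    ‖p.1 - H95.ctr k‖ ≤ 2 * ‖q.1 - H95.ctr k‖ + 1 / 16 * (1 / y k) ∧
    15 / 16 * Hs (rootsL y α) p.1 ≤ Hs (rootsL y α) q.1 := by
  have hH := Hs_le_ctr hp k hy
  have hH0 := Hs_pos hp
  have h1 : c * Hs (rootsL y α) p.1 ≤ 1 / 16 * Hs (rootsL y α) p.1 :=
    mul_le_mul_of_nonneg_right hc1 hH0.le
  have h2 := hN.2.le.trans h1
  have h3 := norm_add_le (q.1 - p.1) (p.1 - H95.ctr k)
  rw [sub_add_sub_cancel, norm_sub_rev q.1 p.1] at h3
  have h4 := norm_add_le (p.1 - q.1) (q.1 - H95.ctr k)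
  rw [sub_add_sub_cancel] at h4
  have hx0 := norm_nonneg (p.1 - H95.ctr k)
  have hy0 : 0 < 1 / y k := by positivity
  refine ⟨by linarith, by linarith, ?_⟩
  have h5 := Hs_ge hp (c := 1 / 16) (by norm_num) h2
  linarith

end Vale.Agent.P273.H213
end
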