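import Vale.Agent.P273.H213.DirC
import Vale.Agent.P273.H828.Dir1

/-!
# P273, ASY1 (6): the weights of the marks in the directions of the scaled frame
-/

noncomputable section

namespace Vale.Agent.P273.H213

open Set Filter Vale.Agent.P273.H95 Vale.Agent.P273.H879 Vale.Agent.P273.H401.Ch1
  Vale.Agent.P273.H828

variable {R : Region1} {m : Fin (R.n + 1)} {p : Co1 R m}

theorem lX_al_ne {i : ℕ} (h : lX R m i ((wr R m).vec (.al ())) ≠ 0) : (m : ℕ) ≤ i := by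
  by_contra h2
  exact h (by rw [lX_al, if_neg h2, zero_mul])

theorem lY_al_ne {i : ℕ} (h : lY R m i ((wr R m).vec (.al ())) ≠ 0) : i < (m : ℕ) := by
  by_contra h2
  exact h (by rw [lY_al, if_neg h2, zero_mul])

/-- a mark that moves in the direction of the angle of the neck -/
theorem moved_al_X (hp : (wr R m).Inr p) (hy : 0 ≤ p.2.2.1 ()) {c : ℝ} (hc : 0 < c) {j : L}
    (hj : R.nk j = true) (h : (m : ℕ) ≤ R.rk j) :
    ‖Xj c p j‖ ≤ c * Real.exp (-(wr R m).ul p ()) := by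
  rw [norm_Xj hc hj]
  refine mul_le_mul_of_nonneg_left (Real.exp_le_exp.2 (neg_le_neg (ul_le_sum hp hy ?_))) hc.le
  rw [last_val, mem_befG]
  exact h

theorem moved_al_Y (hp : (wr R m).Inr p) (hy : 0 ≤ p.2.2.1 ()) {c : ℝ} (hc : 0 < c) {j : L}
    (hj : R.nk j = true) (h : R.rk j < (m : ℕ)) :
    ‖Yj c p j‖ ≤ c * Real.exp (-(wr R m).ul p ()) := by
  rw [norm_Yj hc hj]
  refine mul_le_mul_of_nonneg_left (Real.exp_le_exp.2 (neg_le_neg (ul_le_sum hp hy ?_))) hc.le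
  rw [last_val, mem_aftG]
  exact h

/-- the neck coordinates are at least `c e^(-y)` -/
theorem le_norm_Xj (hp : (wr R m).Inr p) (hy : 0 ≤ p.2.2.1 ()) {c : ℝ} (hc : 0 < c) {j : L}
    (hj : R.nk j = true) : c * Real.exp (-p.2.2.1 ()) ≤ ‖Xj c p j‖ := by
  have h1 : ‖Xj c p j‖ * ‖Yj c p j‖ = c ^ 2 * Real.exp (-p.2.2.1 ()) := by
    rw [← norm_mul, Xj_mul_Yj hj, norm_pow, norm_zh hc, mul_pow, ← Real.exp_nat_mul]
    congr 2
    push_cast
    ring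
  have h2 := norm_Yj_le hp hy hc hj
  have h3 : ‖Xj c p j‖ * ‖Yj c p j‖ ≤ ‖Xj c p j‖ * c :=
    mul_le_mul_of_nonneg_left h2 (norm_nonneg _)
  rw [h1] at h3
  have h4 : c * (c * Real.exp (-p.2.2.1 ())) ≤ c * ‖Xj c p j‖ := by
    calc _ = c ^ 2 * Real.exp (-p.2.2.1 ()) := by ring
      _ ≤ _ := h3
      _ = _ := mul_comm _ _
  exact le_of_mul_le_mul_left h4 hc

theorem le_norm_Yj (hp : (wr R m).Inr p) (hy : 0 ≤ p.2.2.1 ()) {c : ℝ} (hc : 0 < c) {j : L}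
    (hj : R.nk j = true) : c * Real.exp (-p.2.2.1 ()) ≤ ‖Yj c p j‖ := by
  have h1 : ‖Xj c p j‖ * ‖Yj c p j‖ = c ^ 2 * Real.exp (-p.2.2.1 ()) := by
    rw [← norm_mul, Xj_mul_Yj hj, norm_pow, norm_zh hc, mul_pow, ← Real.exp_nat_mul]
    congr 2
    push_cast
    ring
  have h2 := norm_Xj_le hp hy hc hj
  have h3 : ‖Xj c p j‖ * ‖Yj c p j‖ ≤ c * ‖Yj c p j‖ :=
    mul_le_mul_of_nonneg_right h2 (norm_nonneg _)
  rw [h1] at h3
  have h4 : c * (c * Real.exp (-p.2.2.1 ())) ≤ c * ‖Yj c p j‖ := by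
    calc _ = c ^ 2 * Real.exp (-p.2.2.1 ()) := by ring
      _ ≤ _ := h3
  exact le_of_mul_le_mul_left h4 hc

/-! ### the base directions -/

theorem norm_sg_le (d : Dir1 R m) (a : R.Cm ⊕ Fin 5) :
    ‖(evec p d).2.2.2.2 a‖ ≤ 1 := by
  cases d with
  | u f => simp [evec, H732.Reg.vec]
  | ph f => simp [evec, H732.Reg.vec]
  | y k => simp [evec, H732.Reg.eul]
  | al k => simp [evec, H732.Reg.vec]
  | re b =>
    simp only [evec, H732.Reg.vec]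
    exact norm_single_le _ _ _ (by simp)
  | im b =>
    simp only [evec, H732.Reg.vec]
    exact norm_single_le _ _ _ (by simp)

theorem norm_qb_evec (k : Fin 5) (d : Dir1 R m) : ‖qb k (evec p d)‖ ≤ 1 :=
  norm_qb_le k _ fun _ => norm_sg_le d _

/-- **T1 weights, square form**: all directions except the Euler vector -/
theorem neck_T1_sq (k : Fin 5) (hp : (wr R m).Inr p) (hy : 1 ≤ p.2.2.1 ()) {c : ℝ} (hc : 0 < c)
    {j : L} (hj : R.nk j = true) (d : Dir1 R m) (hd : ∀ k, d ≠ .y k) :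
    ‖qb k (evec p d)‖ +
      (‖Xj c p j‖ + (p.2.2.1 ())⁻¹) * ‖lX R m (R.rk j) (evec p d)‖ +
      (‖Yj c p j‖ + (p.2.2.1 ())⁻¹) * ‖lY R m (R.rk j) (evec p d)‖ ≤
      (2 + 30 * c) * cst p d ^ 2 := by
  have hy0 : 0 ≤ p.2.2.1 () := by linarith
  have hX := norm_lX_le (R := R) (m := m) (R.rk j) d
  have hY := norm_lY_le (R := R) (m := m) (R.rk j) d
  cases d with
  | u f =>
    have h1 : ‖Xj c p j‖ ≤ c * Real.exp (-p.1 f) ∨ lX R m (R.rk j) ((wr R m).vec (.u f)) = 0 := by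
      by_cases h : lX R m (R.rk j) ((wr R m).vec (.u f)) = 0
      · exact Or.inr h
      · exact Or.inl (moved_u hp hy0 hc hj f (lX_u_ne h)).1
    have h2 := wgt_u_sq hy hc (X := Xj c p j) (f := f)
      (fun h => (moved_u hp hy0 hc hj f (lX_u_ne h)).1) hX
    have h3 := wgt_u_sq hy hc (X := Yj c p j) (f := f) (l := lY R m (R.rk j) ((wr R m).vec (.u f)))
      (fun h => (moved_u hp hy0 hc hj f (lX_u_ne (fun h4 => h (by
        rw [lY_u_eq, h4, neg_zero])))).2) hY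
    have h4 : ‖qb k (evec p (.u f))‖ = 0 := by
      show ‖qb k ((wr R m).vec (.u f))‖ = 0
      rw [qb_u, norm_zero]
    have h5 := sq_nonneg (cst p (.u f))
    rw [h4]
    show 0 + (‖Xj c p j‖ + (p.2.2.1 ())⁻¹) * ‖lX R m (R.rk j) ((wr R m).vec (.u f))‖ +
      (‖Yj c p j‖ + (p.2.2.1 ())⁻¹) * ‖lY R m (R.rk j) ((wr R m).vec (.u f))‖ ≤ _
    nlinarith [mul_nonneg hc.le h5]
  | ph f =>
    have h2 := wgt_ph_sq hy hc (X := Xj c p j) (f := f)
      (fun h => (moved_u hp hy0 hc hj f (lX_ph_ne h)).1) hX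
    have h3 := wgt_ph_sq hy hc (X := Yj c p j) (f := f) (l := lY R m (R.rk j) ((wr R m).vec (.ph f)))
      (fun h => (moved_u hp hy0 hc hj f (lX_ph_ne (fun h4 => h (by
        rw [lY_ph_eq, h4, neg_zero])))).2) hY
    have h4 : ‖qb k (evec p (.ph f))‖ = 0 := by
      show ‖qb k ((wr R m).vec (.ph f))‖ = 0
      rw [qb_ph, norm_zero]
    have h5 := sq_nonneg (cst p (.ph f))
    rw [h4]
    show 0 + (‖Xj c p j‖ + (p.2.2.1 ())⁻¹) * ‖lX R m (R.rk j) ((wr R m).vec (.ph f))‖ +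
      (‖Yj c p j‖ + (p.2.2.1 ())⁻¹) * ‖lY R m (R.rk j) ((wr R m).vec (.ph f))‖ ≤ _
    nlinarith [mul_nonneg hc.le h5]
  | y k => exact absurd rfl (hd k)
  | al a =>
    cases a
    have h2 := wgt_al_sq hp hy hc () (X := Xj c p j)
      (fun h => moved_al_X hp hy0 hc hj (lX_al_ne h)) hX
    have h3 := wgt_al_sq hp hy hc () (X := Yj c p j)
      (fun h => moved_al_Y hp hy0 hc hj (lY_al_ne h)) hY
    have h4 : ‖qb k (evec p (.al ()))‖ = 0 := by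
      show ‖qb k ((wr R m).vec (.al ()))‖ = 0
      rw [qb_al, norm_zero]
    have h5 := sq_nonneg (cst p (.al ()))
    rw [h4]
    show 0 + (‖Xj c p j‖ + (p.2.2.1 ())⁻¹) * ‖lX R m (R.rk j) ((wr R m).vec (.al ()))‖ +
      (‖Yj c p j‖ + (p.2.2.1 ())⁻¹) * ‖lY R m (R.rk j) ((wr R m).vec (.al ()))‖ ≤ _
    nlinarith [mul_nonneg hc.le h5]
  | re b =>
    have h4 := norm_qb_evec (p := p) k (.re b)
    show ‖qb k (evec p (.re b))‖ +
      (‖Xj c p j‖ + (p.2.2.1 ())⁻¹) * ‖lX R m (R.rk j) ((wr R m).vec (.re b))‖ +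
      (‖Yj c p j‖ + (p.2.2.1 ())⁻¹) * ‖lY R m (R.rk j) ((wr R m).vec (.re b))‖ ≤
      (2 + 30 * c) * (1 : ℝ) ^ 2
    rw [lX_re, lY_re, norm_zero, mul_zero, mul_zero]
    nlinarith
  | im b =>
    have h4 := norm_qb_evec (p := p) k (.im b)
    show ‖qb k (evec p (.im b))‖ +
      (‖Xj c p j‖ + (p.2.2.1 ())⁻¹) * ‖lX R m (R.rk j) ((wr R m).vec (.im b))‖ +
      (‖Yj c p j‖ + (p.2.2.1 ())⁻¹) * ‖lY R m (R.rk j) ((wr R m).vec (.im b))‖ ≤
      (2 + 30 * c) * (1 : ℝ) ^ 2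
    rw [lX_im, lY_im, norm_zero, mul_zero, mul_zero]
    nlinarith

/-- **T1 weights** -/
theorem neck_T1 (k : Fin 5) (hp : (wr R m).Inr p) (hy : 1 ≤ p.2.2.1 ()) {c : ℝ} (hc : 0 < c)
    {j : L} (hj : R.nk j = true) (d : Dir1 R m) :
    ‖qb k (evec p d)‖ +
      (‖Xj c p j‖ + (p.2.2.1 ())⁻¹) * ‖lX R m (R.rk j) (evec p d)‖ +
      (‖Yj c p j‖ + (p.2.2.1 ())⁻¹) * ‖lY R m (R.rk j) (evec p d)‖ ≤
      (2 + 30 * c) * cst p d := by
  have hy0 : 0 < p.2.2.1 () := by linarith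
  by_cases hd : ∃ k, d = .y k
  · obtain ⟨a, rfl⟩ := hd
    cases a
    have h1 := wgt_y hy hc (le_norm_Xj hp hy0.le hc hj) (norm_Xj_le hp hy0.le hc hj)
    have h2 := wgt_y hy hc (le_norm_Yj hp hy0.le hc hj) (norm_Yj_le hp hy0.le hc hj)
    rw [← lX_eul hc hj hy0.ne'] at h1
    rw [← lY_eul hc hj hy0.ne'] at h2
    have h4 : ‖qb k (evec p (.y ()))‖ = 0 := by
      show ‖qb k ((wr R m).eul p ())‖ = 0
      rw [qb_y, norm_zero]
    have h5 : 0 ≤ cst p (.y ()) := H401.Ch1.cst_nonneg (p := p) hy0.le _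
    rw [h4]
    show 0 + (‖Xj c p j‖ + (p.2.2.1 ())⁻¹) * ‖lX R m (R.rk j) ((wr R m).eul p ())‖ +
      (‖Yj c p j‖ + (p.2.2.1 ())⁻¹) * ‖lY R m (R.rk j) ((wr R m).eul p ())‖ ≤ _
    nlinarith [mul_nonneg hc.le h5]
  · have h1 := neck_T1_sq k hp hy hc hj d (fun k h => hd ⟨k, h⟩)
    refine h1.trans (mul_le_mul_of_nonneg_left (cst_sq_le hp hy d) (by positivity))

/-- `lam` of the frame -/
theorem norm_lam_le (d : Dir1 R m) : ‖lam R m (evec p d)‖ ≤ 1 := by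
  cases d with
  | u f => show ‖lam R m ((wr R m).vec (.u f))‖ ≤ 1; rw [lam_u]; simp
  | ph f => show ‖lam R m ((wr R m).vec (.ph f))‖ ≤ 1; rw [lam_ph]; simp
  | y k => cases k; show ‖lam R m ((wr R m).eul p ())‖ ≤ 1; rw [lam_y]; simp
  | al k => cases k; show ‖lam R m ((wr R m).vec (.al ()))‖ ≤ 1; rw [lam_al]; simp
  | re b => show ‖lam R m ((wr R m).vec (.re b))‖ ≤ 1; rw [lam_re]; simp
  | im b => show ‖lam R m ((wr R m).vec (.im b))‖ ≤ 1; rw [lam_im]; simp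

/-- **T1 weights on the core** -/
theorem core_T1 (k : Fin 5) (hy : 1 ≤ p.2.2.1 ()) (i : R.Cm) (d : Dir1 R m) :
    ‖qb k (evec p d)‖ + ‖(evec p d).2.2.2.2 (Sum.inl i)‖ +
      (p.2.2.1 ())⁻¹ * ‖lam R m (evec p d) / 2‖ ≤ 3 * cst p d := by
  have hi : 0 ≤ (p.2.2.1 ())⁻¹ := inv_nonneg.2 (by linarith)
  have h1 := inv_le_cst hy d
  have hl : (p.2.2.1 ())⁻¹ * ‖lam R m (evec p d) / 2‖ ≤ cst p d := by
    have h2 := norm_lam_le (p := p) d
    have h3 : ‖lam R m (evec p d) / 2‖ ≤ 1 := by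
      rw [norm_div, Complex.norm_two]; linarith
    calc _ ≤ (p.2.2.1 ())⁻¹ * 1 := mul_le_mul_of_nonneg_left h3 hi
      _ ≤ _ := by rw [mul_one]; exact h1
  have hq : ‖qb k (evec p d)‖ ≤ cst p d ∧ ‖(evec p d).2.2.2.2 (Sum.inl i)‖ ≤ cst p d := by
    have h0 : 0 ≤ cst p d := H401.Ch1.cst_nonneg (p := p) (by linarith) _
    cases d with
    | u f =>
      refine ⟨?_, ?_⟩
      · show ‖qb k ((wr R m).vec (.u f))‖ ≤ _
        rw [qb_u, norm_zero]; exact h0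
      · show ‖((wr R m).vec (.u f)).2.2.2.2 (Sum.inl i)‖ ≤ _
        simpa [H732.Reg.vec] using h0
    | ph f =>
      refine ⟨?_, ?_⟩
      · show ‖qb k ((wr R m).vec (.ph f))‖ ≤ _
        rw [qb_ph, norm_zero]; exact h0
      · show ‖((wr R m).vec (.ph f)).2.2.2.2 (Sum.inl i)‖ ≤ _
        simpa [H732.Reg.vec] using h0
    | y a =>
      cases a
      refine ⟨?_, ?_⟩
      · show ‖qb k ((wr R m).eul p ())‖ ≤ _
        rw [qb_y, norm_zero]; exact h0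
      · show ‖((wr R m).eul p ()).2.2.2.2 (Sum.inl i)‖ ≤ _
        simpa [H732.Reg.eul] using h0
    | al a =>
      cases a
      refine ⟨?_, ?_⟩
      · show ‖qb k ((wr R m).vec (.al ()))‖ ≤ _
        rw [qb_al, norm_zero]; exact h0
      · show ‖((wr R m).vec (.al ())).2.2.2.2 (Sum.inl i)‖ ≤ _
        simpa [H732.Reg.vec] using h0
    | re b => exact ⟨norm_qb_evec k _, norm_sg_le _ _⟩
    | im b => exact ⟨norm_qb_evec k _, norm_sg_le _ _⟩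
  linarith [hq.1, hq.2]

end Vale.Agent.P273.H213
end
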