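import Vale.Agent.P273.H213.Vmap

/-!
Functionals of degree seven given by their values on monomials, and the half twists as
compositions of elementary substitutions `E_i -> E_i + c E_j` on the values.
-/

noncomputable section
namespace Vale.Agent.P273.H213

open MvPolynomial Finset

/-- move `t` units of the exponent from `i` to `j` -/
def mv (i j : Fin 5) (t : ℕ) (m : Fin 5 → ℕ) : Fin 5 → ℕ :=
  fun l => if l = i then m i - t else if l = j then m j + t else m l

section ring
variable {A B : Type*} [CommRing A] [CommRing B]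

/-- the substitution `E_i -> E_i + c E_j`, on the values of a functional -/
def el (i j : Fin 5) (c : A) (v : (Fin 5 → ℕ) → A) (m : Fin 5 → ℕ) : A :=
  ∑ t ∈ range (m i + 1), ((m i).choose t : A) * c ^ t * v (mv i j t m)

/-- the half twists, on the values of a functional -/
def sop : Fin 5 → ((Fin 5 → ℕ) → A) → (Fin 5 → ℕ) → A
  | 0 => fun v => el 2 0 1 (el 3 1 1 v)
  | 1 => fun v => el 0 2 (-1) (el 1 3 (-1) v)
  | 2 => fun v => el 3 1 1 (el 3 2 1 (el 3 4 (-2) (el 1 0 1 (el 2 0 1 (el 4 0 1 v)))))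
  | 3 => fun v => el 0 1 (-1) (el 2 3 (-1) v)
  | 4 => fun v => el 1 0 1 (el 3 2 1 v)

lemma el_map (f : A →+* B) (i j : Fin 5) (c : A)
    (v : (Fin 5 → ℕ) → A) : el i j (f c) (fun m => f (v m)) = fun m => f (el i j c v m) := by
  funext m
  simp [el, map_sum]

lemma el_map1 (f : A →+* B) (i j : Fin 5) (v : (Fin 5 → ℕ) → A) :
    el i j 1 (fun m => f (v m)) = fun m => f (el i j 1 v m) := by
  rw [← el_map, map_one]

lemma el_mapn (f : A →+* B) (i j : Fin 5) (v : (Fin 5 → ℕ) → A) :
    el i j (-1) (fun m => f (v m)) = fun m => f (el i j (-1) v m) := by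
  rw [← el_map, map_neg, map_one]

lemma el_mapt (f : A →+* B) (i j : Fin 5) (v : (Fin 5 → ℕ) → A) :
    el i j (-2) (fun m => f (v m)) = fun m => f (el i j (-2) v m) := by
  rw [← el_map, map_neg, map_ofNat]

/-- the operations commute with maps of rings -/
theorem sop_map (f : A →+* B) (k : Fin 5) (v : (Fin 5 → ℕ) → A) :
    sop k (fun m => f (v m)) = fun m => f (sop k v m) := by
  fin_cases k <;> simp only [sop, el_map1, el_mapn, el_mapt]

end ring

/-- the functional with value `v m` at the monomials `m` of degree seven, and zero in the other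
degrees -/
def fn (v : (Fin 5 → ℕ) → ℝ) : VV :=
  (basisMonomials (Fin 5) ℝ).constr ℝ fun m => if m.degree = 7 then v m else 0

lemma fn_monomial (v : (Fin 5 → ℕ) → ℝ) (m : Fin 5 →₀ ℕ) :
    fn v (monomial m 1) = if m.degree = 7 then v m else 0 := by
  have := (basisMonomials (Fin 5) ℝ).constr_basis ℝ
    (fun m : Fin 5 →₀ ℕ => if m.degree = 7 then v m else 0) m
  rwa [coe_basisMonomials] at this

lemma VV_ext {v w : VV} (h : ∀ m : Fin 5 →₀ ℕ, v (monomial m 1) = w (monomial m 1)) : v = w := by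
  refine (basisMonomials (Fin 5) ℝ).ext fun m => ?_
  rw [coe_basisMonomials]; exact h m

/-- equality of functionals of degree seven -/
theorem fn_congr {v w : (Fin 5 → ℕ) → ℝ} (h : ∀ m : Fin 5 → ℕ, ∑ l, m l = 7 → v m = w m) :
    fn v = fn w := by
  refine VV_ext fun m => ?_
  rw [fn_monomial, fn_monomial]
  split_ifs with hm
  · exact h m (by rw [← hm, Finsupp.degree_eq_sum])
  · rfl

theorem fn_add (v w : (Fin 5 → ℕ) → ℝ) : fn (v + w) = fn v + fn w := by
  refine VV_ext fun m => ?_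
  rw [LinearMap.add_apply, fn_monomial, fn_monomial, fn_monomial]
  split_ifs <;> simp

theorem fn_smul (c : ℝ) (v : (Fin 5 → ℕ) → ℝ) : fn (c • v) = c • fn v := by
  refine VV_ext fun m => ?_
  rw [LinearMap.smul_apply, fn_monomial, fn_monomial]
  split_ifs <;> simp

theorem fn_zero : fn 0 = 0 := by
  have := fn_smul 0 0
  rwa [zero_smul, zero_smul] at this

theorem fn_neg (v : (Fin 5 → ℕ) → ℝ) : fn (-v) = -fn v := by
  refine VV_ext fun m => ?_
  rw [LinearMap.neg_apply, fn_monomial, fn_monomial]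
  split_ifs <;> simp

theorem fn_sub (v w : (Fin 5 → ℕ) → ℝ) : fn (v - w) = fn v - fn w := by
  rw [sub_eq_add_neg, fn_add, fn_neg, sub_eq_add_neg]

/-- the substitution `E_i -> E_i + c E_j` -/
def shf (i j : Fin 5) (c : ℝ) : RR →ₐ[ℝ] RR :=
  aeval fun l => if l = i then X i + C c * X j else X l

lemma prod_mono (m : Fin 5 → ℕ) :
    (∏ l, (X l : RR) ^ m l) = monomial (Finsupp.equivFunOnFinite.symm m) 1 := by
  rw [monomial_eq, Finsupp.prod_fintype _ _ (fun _ => pow_zero _)]
  simp

lemma prod_mv {i j : Fin 5} (hij : i ≠ j) (t : ℕ) (m : Fin 5 → ℕ) :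
    (∏ l, (X l : RR) ^ mv i j t m l) =
      X i ^ (m i - t) * (X j ^ t * ∏ l ∈ univ.erase i, X l ^ m l) := by
  have hj : j ∈ univ.erase i := mem_erase.2 ⟨hij.symm, mem_univ _⟩
  rw [← mul_prod_erase univ _ (mem_univ i), ← mul_prod_erase (univ.erase i) _ hj,
    ← mul_prod_erase (univ.erase i) (fun l => (X l : RR) ^ m l) hj]
  have h1 : mv i j t m i = m i - t := by simp [mv]
  have h2 : mv i j t m j = m j + t := by simp [mv, hij.symm]
  rw [h1, h2, pow_add]
  have h3 : ∏ l ∈ (univ.erase i).erase j, (X l : RR) ^ mv i j t m l =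
      ∏ l ∈ (univ.erase i).erase j, (X l : RR) ^ m l := by
    refine Finset.prod_congr rfl fun l hl => ?_
    have hlj : l ≠ j := (mem_erase.1 hl).1
    have hli : l ≠ i := (mem_erase.1 (mem_erase.1 hl).2).1
    simp [mv, hlj, hli]
  rw [h3]; ring

lemma sum_mv {i j : Fin 5} (hij : i ≠ j) {t : ℕ} {m : Fin 5 → ℕ} (ht : t ≤ m i) :
    ∑ l, mv i j t m l = ∑ l, m l := by
  have hj : j ∈ univ.erase i := mem_erase.2 ⟨hij.symm, mem_univ _⟩
  rw [← add_sum_erase univ _ (mem_univ i), ← add_sum_erase (univ.erase i) _ hj,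
    ← add_sum_erase univ m (mem_univ i), ← add_sum_erase (univ.erase i) m hj]
  have h1 : mv i j t m i = m i - t := by simp [mv]
  have h2 : mv i j t m j = m j + t := by simp [mv, hij.symm]
  have h3 : ∑ l ∈ (univ.erase i).erase j, mv i j t m l = ∑ l ∈ (univ.erase i).erase j, m l := by
    refine Finset.sum_congr rfl fun l hl => ?_
    have hlj : l ≠ j := (mem_erase.1 hl).1
    have hli : l ≠ i := (mem_erase.1 (mem_erase.1 hl).2).1
    simp [mv, hlj, hli]
  rw [h1, h2, h3]; omega

theorem fn_shf {i j : Fin 5} (hij : i ≠ j) (c : ℝ) (v : (Fin 5 → ℕ) → ℝ) :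
    fn v ∘ₗ (shf i j c).toLinearMap = fn (el i j c v) := by
  refine VV_ext fun m => ?_
  rw [LinearMap.comp_apply, AlgHom.toLinearMap_apply, fn_monomial]
  have e1 : shf i j c (monomial m 1) =
      ∑ t ∈ range (m i + 1), ((m i).choose t * c ^ t : ℝ) •
        monomial (Finsupp.equivFunOnFinite.symm (mv i j t m)) (1 : ℝ) := by
    rw [shf, aeval_monomial, map_one, one_mul, Finsupp.prod_fintype _ _ (fun _ => pow_zero _),
      ← mul_prod_erase univ _ (mem_univ i), if_pos rfl, add_comm (X i), add_pow, sum_mul]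
    refine Finset.sum_congr rfl fun t _ => ?_
    rw [← prod_mono, prod_mv hij]
    have h3 : ∏ l ∈ univ.erase i, (if l = i then C c * X j + X i else X l : RR) ^ m l =
        ∏ l ∈ univ.erase i, (X l : RR) ^ m l := by
      refine Finset.prod_congr rfl fun l hl => ?_
      rw [if_neg (mem_erase.1 hl).1]
    have h4 : ∏ l ∈ univ.erase i, (if l = i then X i + C c * X j else X l : RR) ^ m l =
        ∏ l ∈ univ.erase i, (X l : RR) ^ m l := by
      refine Finset.prod_congr rfl fun l hl => ?_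
      rw [if_neg (mem_erase.1 hl).1]
    first
      | rw [h4]
      | rw [h3]
    rw [smul_eq_C_mul, map_mul, map_pow, mul_pow, map_natCast]
    ring
  rw [e1, map_sum]
  simp only [map_smul, fn_monomial, smul_eq_mul]
  by_cases hm : m.degree = 7
  · rw [if_pos hm, el]
    refine Finset.sum_congr rfl fun t ht => ?_
    have ht' : t ≤ m i := Nat.lt_succ_iff.1 (mem_range.1 ht)
    rw [if_pos]
    · rfl
    · rw [Finsupp.degree_eq_sum] at hm ⊢
      rw [← hm, ← sum_mv hij ht']; rfl
  · rw [if_neg hm]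
    refine Finset.sum_eq_zero fun t ht => ?_
    have ht' : t ≤ m i := Nat.lt_succ_iff.1 (mem_range.1 ht)
    rw [if_neg, mul_zero]
    intro h
    apply hm
    rw [Finsupp.degree_eq_sum] at h ⊢
    rw [← h, ← sum_mv hij ht']; rfl

/-- **the half twists on values** -/
theorem fn_sop (k : Fin 5) (v : (Fin 5 → ℕ) → ℝ) : sV k (fn v) = fn (sop k v) := by
  have hc : ∀ (φ ψ : RR →ₐ[ℝ] RR) (w : VV),
      w ∘ₗ (φ.comp ψ).toLinearMap = (w ∘ₗ φ.toLinearMap) ∘ₗ ψ.toLinearMap := fun _ _ _ => rfl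
  have hs : ∀ k' (w : VV), sV k' w = w ∘ₗ (sR k').toLinearMap := fun _ _ => rfl
  have h0 : sR 0 = (shf 3 1 1).comp (shf 2 0 1) := by
    refine MvPolynomial.algHom_ext fun l => ?_
    fin_cases l <;> simp [sR, sub, shf]
  have h1 : sR 1 = (shf 1 3 (-1)).comp (shf 0 2 (-1)) := by
    refine MvPolynomial.algHom_ext fun l => ?_
    fin_cases l <;> simp [sR, sub, shf] <;> ring
  have h2 : sR 2 = (shf 4 0 1).comp ((shf 2 0 1).comp ((shf 1 0 1).comp ((shf 3 4 (-2)).comp
      ((shf 3 2 1).comp (shf 3 1 1))))) := by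
    have c2 : (C 2 : RR) = 2 := map_ofNat _ _
    refine MvPolynomial.algHom_ext fun l => ?_
    fin_cases l <;> simp [sR, sub, shf, c2, map_ofNat] <;> ring
  have h3 : sR 3 = (shf 2 3 (-1)).comp (shf 0 1 (-1)) := by
    refine MvPolynomial.algHom_ext fun l => ?_
    fin_cases l <;> simp [sR, sub, shf] <;> ring
  have h4 : sR 4 = (shf 3 2 1).comp (shf 1 0 1) := by
    refine MvPolynomial.algHom_ext fun l => ?_
    fin_cases l <;> simp [sR, sub, shf]
  fin_cases k
  · show sV 0 (fn v) = fn (el 2 0 1 (el 3 1 1 v))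
    rw [hs, h0, hc, fn_shf (by decide), fn_shf (by decide)]
  · show sV 1 (fn v) = fn (el 0 2 (-1) (el 1 3 (-1) v))
    rw [hs, h1, hc, fn_shf (by decide), fn_shf (by decide)]
  · show sV 2 (fn v) = fn (el 3 1 1 (el 3 2 1 (el 3 4 (-2) (el 1 0 1 (el 2 0 1 (el 4 0 1 v))))))
    rw [hs, h2, hc, hc, hc, hc, hc, fn_shf (by decide), fn_shf (by decide), fn_shf (by decide),
      fn_shf (by decide), fn_shf (by decide), fn_shf (by decide)]
  · show sV 3 (fn v) = fn (el 0 1 (-1) (el 2 3 (-1) v))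
    rw [hs, h3, hc, fn_shf (by decide), fn_shf (by decide)]
  · show sV 4 (fn v) = fn (el 1 0 1 (el 3 2 1 v))
    rw [hs, h4, hc, fn_shf (by decide), fn_shf (by decide)]

end Vale.Agent.P273.H213
end
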