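import Vale.Agent.P273.H213.DelW
import Vale.Agent.P273.H778.T2Defs

/-!
# P273, crew ASY0, T2 (C): the literal inputs `InC1`, `InC2` of the assembly
-/

noncomputable section

namespace Vale.Agent.P273.H213

open Set Filter H681 H95 H732 H562 H973 H578 H803 H778
open scoped Topology ContDiff

variable {R : H95.Region} {m : ∀ k, Fin (R.n k + 1)} {S : L → Bool} {N₀ : ℝ} {p : Co R m}

theorem baseOk_of_adm {N₁ : ℝ} (h : Adm R m S N₀ p) (hN : N₁ ≤ N₀) :
    BaseOk N₁ p.2.2.1 p.2.2.2.1 :=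
  ⟨fun k => hN.trans (h.2.1 k), h.2.2.1⟩

/-- (C1) -/
theorem inC1_of (h0 : InA0) {O : One} (hV : Vert O) : InC1 O := by
  obtain ⟨N1, hN1, h1⟩ := h0
  obtain ⟨K, N2, hK, hN2, h2⟩ := exists_del_bound hV
  refine ⟨K, max N1 N2, hN1.trans (le_max_left _ _), fun R m S hS p hp t k l hk hl hn ξ hξ => ?_⟩
  have hB : Brd S (posE R m) (shE R m S) p :=
    h1 R m S hS p ⟨hp.1, fun k => (le_max_left _ _).trans (hp.2.1 k), hp.2.2⟩
  have hPk : Pt (bM R m p) (PMt R m S t k p) := hB.pt_self hk.fin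
  exact h2 _ _ (baseOk_of_adm hp (le_max_right _ _)) ξ hξ (rad k) _ _ (rad_pos _)
    ((rad_le _).trans (by norm_num)) hPk hn

/-- (C2) -/
theorem inC2_of (h0 : InA0) : InC2 := by
  obtain ⟨N1, hN1, h1⟩ := h0
  refine ⟨N1, hN1, fun R m S hS p hp t k l hk hl hn c => ?_⟩
  have hB : Brd S (posE R m) (shE R m S) p := h1 R m S hS p hp
  have hPk : Off (bM R m p) (PMt R m S t k p).1 := (hB.pt_self hk).off
  have h2 : Hs (bM R m p) (PMt R m S t k p).1 ≤ ‖xM R m S t k p - H95.ctr c‖ +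
      1 / 16 * Real.exp (-(p.2.2.1 c) / 2) := by
    have e1 := Hs_le hPk (rk c)
    have e2 := norm_sub_le ((PMt R m S t k p).1 - H95.ctr c) (bM R m p (rk c) - H95.ctr c)
    rw [sub_sub_sub_cancel_right] at e2
    have e3 : ‖bM R m p (rk c) - H95.ctr c‖ = 1 / 16 * Real.exp (-(p.2.2.1 c) / 2) :=
      norm_root_sub _ _ c
    rw [e3] at e2
    exact e1.trans e2
  have h3 : ‖xM R m S t k p - xM R m S t l p‖ ≤
      1 / 256 * Hs (bM R m p) (PMt R m S t k p).1 :=
    hn.2.le.trans (mul_le_mul_of_nonneg_right (rad_le _) (Hs_nonneg _ _))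
  have h4 := norm_add_le (xM R m S t l p - xM R m S t k p) (xM R m S t k p - H95.ctr c)
  rw [sub_add_sub_cancel, norm_sub_rev (xM R m S t l p) (xM R m S t k p)] at h4
  have h5 := norm_add_le (xM R m S t k p - xM R m S t l p) (xM R m S t l p - H95.ctr c)
  rw [sub_add_sub_cancel] at h5
  have h6 := norm_nonneg (xM R m S t k p - H95.ctr c)
  have h7 := norm_nonneg (xM R m S t l p - H95.ctr c)
  have h8 := (Real.exp_pos (-(p.2.2.1 c) / 2)).le
  constructor <;> linarith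

end Vale.Agent.P273.H213
end
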