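import Vale.Agent.P273.H213.InC
import Vale.Agent.P273.H578.InA0

/-!
# P273, crew ASY0, T2 (C): `InC1`, `InC2`
-/

noncomputable section

namespace Vale.Agent.P273.H213

open H803 H778 H973

/-- (C1) -/
theorem inC1 {O : One} (hV : Vert O) : InC1 O := inC1_of H578.inA0 hV

/-- (C2) -/
theorem inC2 : InC2 := inC2_of H578.inA0

end Vale.Agent.P273.H213
end
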