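import Mathlib

/-!
Coefficients of the local system: functionals on homogeneous polynomials of degree seven in the five
basic bivectors, the five half twists, and the multilinear forms on pairs of seven vectors.
-/

noncomputable section
namespace Vale.Agent.P273.H213

open MvPolynomial Finset

/-- polynomials in the five bivectors `E1 = e1^e2, E2 = e1^f2, E3 = f1^e2, E4 = f1^f2,
E5 = e1^f1 = -e2^f2` (indices `0, .., 4`) -/
abbrev RR := MvPolynomial (Fin 5) ℝ

/-- the coefficient space -/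
abbrev VV := RR →ₗ[ℝ] ℝ

/-- value space, basis `e1, f1, e2, f2` -/
abbrev HH := Fin 4 → ℝ

/-- images of the five bivectors under the half twists `1, .., 5` (indices `0, .., 4`) -/
def sub : Fin 5 → Fin 5 → RR
  | 0 => ![X 0, X 1, X 2 + X 0, X 3 + X 1, X 4]
  | 1 => ![X 0 - X 2, X 1 - X 3, X 2, X 3, X 4]
  | 2 => ![X 0, X 1 + X 0, X 2 + X 0, X 3 + X 1 + X 2 - 2 * X 4, X 4 + X 0]
  | 3 => ![X 0 - X 1, X 1, X 2 - X 3, X 3, X 4]
  | 4 => ![X 0, X 1 + X 0, X 2, X 3 + X 2, X 4]

/-- the half twists on polynomials -/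
def sR (k : Fin 5) : RR →ₐ[ℝ] RR := aeval (sub k)

/-- the half twists on the coefficient space -/
def sV (k : Fin 5) : VV →ₗ[ℝ] VV where
  toFun v := v ∘ₗ (sR k).toLinearMap
  map_add' _ _ := rfl
  map_smul' _ _ := rfl

@[simp] lemma sV_apply (k : Fin 5) (v : VV) (p : RR) : sV k v p = v (sR k p) := rfl

/-- the half twists on vectors: `x + <d_k, x> d_k`, `d = e1, f1, e1 + e2, f2, e2` -/
def sHf : Fin 5 → HH → HH
  | 0 => fun x => ![x 0 + x 1, x 1, x 2, x 3]
  | 1 => fun x => ![x 0, x 1 - x 0, x 2, x 3]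
  | 2 => fun x => ![x 0 + x 1 + x 3, x 1, x 2 + x 1 + x 3, x 3]
  | 3 => fun x => ![x 0, x 1, x 2, x 3 - x 2]
  | 4 => fun x => ![x 0, x 1, x 2 + x 3, x 3]

/-- the same as linear maps -/
def sH (k : Fin 5) : HH →ₗ[ℝ] HH where
  toFun := sHf k
  map_add' x y := by
    fin_cases k <;> funext i <;> fin_cases i <;> simp [sHf] <;> ring
  map_smul' c x := by
    fin_cases k <;> funext i <;> fin_cases i <;> simp [sHf] <;> ring

/-- the bivector `x ^ y`, modulo the symplectic form -/
def pl (x y : HH) : RR :=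
  C (x 0 * y 2 - x 2 * y 0) * X 0 + C (x 0 * y 3 - x 3 * y 0) * X 1 +
    C (x 1 * y 2 - x 2 * y 1) * X 2 + C (x 1 * y 3 - x 3 * y 1) * X 3 +
    C ((x 0 * y 1 - x 1 * y 0) - (x 2 * y 3 - x 3 * y 2)) * X 4

lemma pl_add_left (x x' y : HH) : pl (x + x') y = pl x y + pl x' y := by
  simp only [pl, Pi.add_apply, map_sub, map_add, map_mul]; ring

lemma pl_add_right (x y y' : HH) : pl x (y + y') = pl x y + pl x y' := by
  simp only [pl, Pi.add_apply, map_sub, map_add, map_mul]; ring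

lemma pl_smul_left (c : ℝ) (x y : HH) : pl (c • x) y = c • pl x y := by
  simp only [pl, Pi.smul_apply, smul_eq_mul, map_sub, map_mul, MvPolynomial.smul_eq_C_mul]; ring

lemma pl_smul_right (c : ℝ) (x y : HH) : pl x (c • y) = c • pl x y := by
  simp only [pl, Pi.smul_apply, smul_eq_mul, map_sub, map_mul, MvPolynomial.smul_eq_C_mul]; ring

lemma pl_swap (x y : HH) : pl y x = - pl x y := by
  simp only [pl, map_sub, map_mul]; ring

lemma pl_self (x : HH) : pl x x = 0 := by
  simp only [pl, map_sub, map_mul]; ring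

lemma sR_pl (k : Fin 5) (x y : HH) : sR k (pl x y) = pl (sH k x) (sH k y) := by
  have hC : ∀ (r : ℝ), sR k (C r) = C r := fun r => by
    simp [sR, MvPolynomial.algHom_C]
  have hX : ∀ i, sR k (X i) = sub k i := fun i => by simp [sR]
  simp only [pl, map_add, map_mul, hC, hX]
  fin_cases k <;>
    simp [sub, sH, sHf, map_sub, map_add, map_mul] <;> ring

lemma prod_inl (π : Equiv.Perm (Fin 7)) (m : Fin 7 ⊕ Fin 7 → HH) (i : Fin 7) (z : HH) :
    (∏ k, pl (Function.update m (Sum.inl i) z (Sum.inl k))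
      (Function.update m (Sum.inl i) z (Sum.inr (π k)))) =
      pl z (m (Sum.inr (π i))) * ∏ k ∈ univ.erase i, pl (m (Sum.inl k)) (m (Sum.inr (π k))) := by
  rw [← Finset.mul_prod_erase univ _ (mem_univ i), Function.update_self,
    Function.update_of_ne Sum.inr_ne_inl]
  congr 1
  refine Finset.prod_congr rfl fun k hk => ?_
  rw [Function.update_of_ne (Sum.inl_injective.ne (Finset.ne_of_mem_erase hk)),
    Function.update_of_ne Sum.inr_ne_inl]

lemma prod_inr (π : Equiv.Perm (Fin 7)) (m : Fin 7 ⊕ Fin 7 → HH) (i : Fin 7) (z : HH) :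
    (∏ k, pl (Function.update m (Sum.inr i) z (Sum.inl k))
      (Function.update m (Sum.inr i) z (Sum.inr (π k)))) =
      pl (m (Sum.inl (π.symm i))) z *
        ∏ k ∈ univ.erase (π.symm i), pl (m (Sum.inl k)) (m (Sum.inr (π k))) := by
  rw [← Finset.mul_prod_erase univ _ (mem_univ (π.symm i)),
    Function.update_of_ne Sum.inl_ne_inr, Equiv.apply_symm_apply, Function.update_self]
  congr 1
  refine Finset.prod_congr rfl fun k hk => ?_
  have hk' : π k ≠ i := by
    intro h
    exact Finset.ne_of_mem_erase hk (by rw [← h, Equiv.symm_apply_apply])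
  rw [Function.update_of_ne Sum.inl_ne_inr, Function.update_of_ne (Sum.inr_injective.ne hk')]

/-- the value of the multilinear form of a coefficient -/
def TTf (v : VV) (m : Fin 7 ⊕ Fin 7 → HH) : ℝ :=
  ∑ π : Equiv.Perm (Fin 7), v (∏ k, pl (m (Sum.inl k)) (m (Sum.inr (π k))))

lemma TTf_add (v : VV) (m : Fin 7 ⊕ Fin 7 → HH) (i : Fin 7 ⊕ Fin 7) (x y : HH) :
    TTf v (Function.update m i (x + y)) =
      TTf v (Function.update m i x) + TTf v (Function.update m i y) := by
  unfold TTf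
  rw [← Finset.sum_add_distrib]
  refine Finset.sum_congr rfl fun π _ => ?_
  rw [← map_add]
  congr 1
  rcases i with i | i
  · rw [prod_inl, prod_inl, prod_inl, pl_add_left, add_mul]
  · rw [prod_inr, prod_inr, prod_inr, pl_add_right, add_mul]

lemma TTf_smul (v : VV) (m : Fin 7 ⊕ Fin 7 → HH) (i : Fin 7 ⊕ Fin 7) (c : ℝ) (x : HH) :
    TTf v (Function.update m i (c • x)) = c • TTf v (Function.update m i x) := by
  unfold TTf
  rw [Finset.smul_sum]
  refine Finset.sum_congr rfl fun π _ => ?_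
  rw [← map_smul]
  congr 1
  rcases i with i | i
  · rw [prod_inl, prod_inl, pl_smul_left, smul_mul_assoc]
  · rw [prod_inr, prod_inr, pl_smul_right, smul_mul_assoc]

/-- the multilinear form of a coefficient -/
def TT (v : VV) : MultilinearMap ℝ (fun _ : Fin 7 ⊕ Fin 7 => HH) ℝ :=
  MultilinearMap.mk' (TTf v) (TTf_add v) (TTf_smul v)

lemma TT_apply (v : VV) (m : Fin 7 ⊕ Fin 7 → HH) :
    TT v m = ∑ π : Equiv.Perm (Fin 7), v (∏ k, pl (m (Sum.inl k)) (m (Sum.inr (π k)))) := rfl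

/-- linearity in the coefficient -/
def TTl : VV →ₗ[ℝ] MultilinearMap ℝ (fun _ : Fin 7 ⊕ Fin 7 => HH) ℝ where
  toFun := TT
  map_add' v w := by
    ext m; simp [TT_apply, Finset.sum_add_distrib]
  map_smul' c v := by
    ext m; simp [TT_apply, Finset.mul_sum]

/-- equivariance under the half twists -/
theorem TT_sV (k : Fin 5) (v : VV) (m : Fin 7 ⊕ Fin 7 → HH) :
    TT (sV k v) m = TT v (fun i => sH k (m i)) := by
  simp only [TT_apply, sV_apply, map_prod, sR_pl]

/-- the summand of the multilinear form -/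
def TTs (v : VV) (m : Fin 7 ⊕ Fin 7 → HH) (π : Equiv.Perm (Fin 7)) : ℝ :=
  v (∏ k, pl (m (Sum.inl k)) (m (Sum.inr (π k))))

lemma TTs_symm (v : VV) (m : Fin 7 ⊕ Fin 7 → HH) (σ τ π : Equiv.Perm (Fin 7)) :
    TTs v (fun i => m (Equiv.sumCongr σ τ i)) π = TTs v m (τ * π * σ⁻¹) := by
  have h : ∀ g : Fin 7 → RR, ∏ k, g (σ k) = ∏ k, g k := fun g => Equiv.prod_comp σ g
  have h2 : (∏ k, pl (m (Sum.inl (σ k))) (m (Sum.inr (τ (π k))))) =
      ∏ k, pl (m (Sum.inl k)) (m (Sum.inr ((τ * π * σ⁻¹) k))) := by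
    rw [← h (fun k => pl (m (Sum.inl k)) (m (Sum.inr ((τ * π * σ⁻¹) k))))]
    refine Finset.prod_congr rfl fun k _ => ?_
    have e : (τ * π * σ⁻¹) (σ k) = τ (π k) := by
      rw [Equiv.Perm.mul_apply, Equiv.Perm.mul_apply, Equiv.Perm.inv_def, Equiv.symm_apply_apply]
    rw [e]
  exact congrArg v h2

/-- symmetry in the first seven and in the last seven arguments -/
theorem TT_symm (v : VV) (m : Fin 7 ⊕ Fin 7 → HH) (σ τ : Equiv.Perm (Fin 7)) :
    TT v (fun i => m (Equiv.sumCongr σ τ i)) = TT v m := by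
  have h1 : ∀ m', TT v m' = ∑ π : Equiv.Perm (Fin 7), TTs v m' π := fun m' => rfl
  rw [h1, h1, Finset.sum_congr rfl fun π _ => TTs_symm v m σ τ π]
  generalize TTs v m = g
  exact (Equiv.sum_comp ((Equiv.mulLeft τ).trans (Equiv.mulRight σ⁻¹)) g)

end Vale.Agent.P273.H213
end
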