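import Vale.Agent.P273.H213.Wt
import Vale.Agent.P273.H254.Val

/-!
The coefficients that kill the Pluecker relation are stable under the half twists; finite checks;
the classes modulo `MM` in a product of bivectors.
-/

noncomputable section
namespace Vale.Agent.P273.H213

open MvPolynomial Finset H254

theorem sR_plr (k : Fin 5) : sR k plr = plr := by
  fin_cases k <;> simp [sR, sub, plr, map_ofNat] <;> ring

theorem PlV_zero : PlV 0 := fun _ => rfl

theorem PlV_add {v w : VV} (hv : PlV v) (hw : PlV w) : PlV (v + w) := fun p => by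
  rw [LinearMap.add_apply, hv p, hw p, add_zero]

theorem PlV_sub {v w : VV} (hv : PlV v) (hw : PlV w) : PlV (v - w) := fun p => by
  rw [LinearMap.sub_apply, hv p, hw p, sub_zero]

theorem PlV_neg {v : VV} (hv : PlV v) : PlV (-v) := fun p => by
  rw [LinearMap.neg_apply, hv p, neg_zero]

theorem PlV_smul (c : ℝ) {v : VV} (hv : PlV v) : PlV (c • v) := fun p => by
  rw [LinearMap.smul_apply, hv p, smul_zero]

/-- **stable under the half twists** -/
theorem PlV_sV (k : Fin 5) {v : VV} (hv : PlV v) : PlV (sV k v) := fun p => by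
  rw [sV_apply, map_mul, sR_plr, hv]

/-- add units to an exponent -/
def ad (i j : Fin 5) (m : Fin 5 → ℕ) : Fin 5 → ℕ :=
  fun l => m l + (if l = i then 1 else 0) + (if l = j then 1 else 0)

/-- **the finite check** -/
theorem PlV_fn {v : (Fin 5 → ℕ) → ℝ}
    (h : ∀ m : Fin 5 → ℕ, ∑ l, m l = 5 → v (ad 4 4 m) - v (ad 1 2 m) + v (ad 0 3 m) = 0) :
    PlV (fn v) := by
  intro p
  rw [← support_sum_monomial_coeff p, mul_sum, map_sum]
  refine Finset.sum_eq_zero fun m _ => ?_
  have e0 : (monomial m (coeff m p) : RR) = coeff m p • monomial m 1 := by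
    rw [smul_monomial, smul_eq_mul, mul_one]
  have e1 : ∀ i j : Fin 5, (X i * X j * monomial m 1 : RR) =
      monomial (Finsupp.equivFunOnFinite.symm (ad i j m)) 1 := by
    intro i j
    have : (Finsupp.equivFunOnFinite.symm (ad i j m) : Fin 5 →₀ ℕ) =
        Finsupp.single i 1 + Finsupp.single j 1 + m := by
      ext l
      simp only [Finsupp.equivFunOnFinite_symm_apply_apply, Finsupp.add_apply,
        Finsupp.single_apply, ad, eq_comm]
      ring
    rw [this, X, X, monomial_mul, monomial_mul, one_mul, one_mul]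
  have e2 : (plr * monomial m 1 : RR) =
      monomial (Finsupp.equivFunOnFinite.symm (ad 4 4 m)) 1 -
      monomial (Finsupp.equivFunOnFinite.symm (ad 1 2 m)) 1 +
      monomial (Finsupp.equivFunOnFinite.symm (ad 0 3 m)) 1 := by
    rw [← e1, ← e1, ← e1, plr]; ring
  rw [e0, mul_smul_comm, map_smul, e2, map_add, map_sub, fn_monomial, fn_monomial, fn_monomial]
  have hd : ∀ i j : Fin 5, (Finsupp.equivFunOnFinite.symm (ad i j m) : Fin 5 →₀ ℕ).degree =
      ∑ l, m l + 2 := by
    intro i j
    rw [Finsupp.degree_eq_sum]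
    simp only [Finsupp.equivFunOnFinite_symm_apply_apply, ad, Finset.sum_add_distrib]
    simp
  simp only [hd]
  by_cases hm : ∑ l, m l = 5
  · have := h m hm
    simp only [hm, Nat.reduceAdd, if_true]
    rw [smul_eq_mul, mul_eq_zero]
    exact Or.inr this
  · have h7 : ¬ (∑ l, m l + 2 = 7) := by omega
    simp only [if_neg h7, sub_zero, add_zero, smul_zero]

theorem Wt.killM {n : ℕ} {v : VV} (hv : Wt n v) : KillM n v := fun d _ hn => hv d (by
  have : wd d = ∑ i, wM i * d i := Finset.sum_congr rfl fun i _ => mul_comm _ _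
  rwa [this])

/-- the difference of two products of bivectors when the first vectors are changed in `MM` -/
theorem prod_pl_sub_mem {ι : Type*} (s : Finset ι) (t t' m : ι → HH) (hm : ∀ i ∈ s, m i ∈ MM)
    (ht : ∀ i ∈ s, t' i - t i ∈ MM) :
    ∏ i ∈ s, pl (t' i) (m i) - ∏ i ∈ s, pl (t i) (m i) ∈ FF (s.card + 1) := by
  classical
  induction s using Finset.induction_on with
  | empty => simpa using (FF 1).zero_mem
  | insert i s hi ih =>
    rw [Finset.prod_insert hi, Finset.prod_insert hi, Finset.card_insert_of_notMem hi]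
    have h1 := ih (fun j hj => hm j (mem_insert_of_mem hj)) (fun j hj => ht j (mem_insert_of_mem hj))
    have e : pl (t' i) (m i) * ∏ j ∈ s, pl (t' j) (m j) - pl (t i) (m i) * ∏ j ∈ s, pl (t j) (m j) =
        pl (t' i - t i) (m i) * ∏ j ∈ s, pl (t' j) (m j) +
        pl (t i) (m i) * (∏ j ∈ s, pl (t' j) (m j) - ∏ j ∈ s, pl (t j) (m j)) := by
      have : pl (t' i) (m i) = pl (t' i - t i) (m i) + pl (t i) (m i) := by
        rw [← pl_add_left, sub_add_cancel]
      rw [this]; ring
    rw [e]
    have h2 : ∏ j ∈ s, pl (t' j) (m j) ∈ FF s.card := by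
      have := FF_prod s (fun _ => 1) (fun j => pl (t' j) (m j))
        fun j hj => pl_mem_right _ (hm j (mem_insert_of_mem hj))
      simpa using this
    have h3 : pl (t' i - t i) (m i) ∈ FF 2 :=
      pl_mem_both (ht i (mem_insert_self i s)) (hm i (mem_insert_self i s))
    have h4 : pl (t i) (m i) ∈ FF 1 := pl_mem_right _ (hm i (mem_insert_self i s))
    refine (FF _).add_mem (FF_mono (by omega) (FF_mul h3 h2)) (FF_mono (by omega) (FF_mul h4 h1))

/-- **the value of a product of bivectors depends only on the classes modulo `MM`** -/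
theorem Wt.prod_congr {ι : Type*} {n b : ℕ} {v : VV} (s : Finset ι) (hv : Wt n v)
    (hn : n ≤ s.card + b + 1) (t t' m : ι → HH) (hm : ∀ i ∈ s, m i ∈ MM)
    (ht : ∀ i ∈ s, t' i - t i ∈ MM) (q : RR) (hq : q ∈ FF b) :
    v ((∏ i ∈ s, pl (t' i) (m i)) * q) = v ((∏ i ∈ s, pl (t i) (m i)) * q) := by
  rw [← sub_eq_zero, ← map_sub, ← sub_mul]
  exact hv.kill (FF_mono (by omega) (FF_mul (prod_pl_sub_mem s t t' m hm ht) hq))

end Vale.Agent.P273.H213
end
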