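import Vale.Agent.P273.H213.Fn

/-!
Weights: `Wt n v` says that the coefficient `v` kills all monomials with at least `n` factors `e1`,
`e2`. Then the multilinear form of `v` vanishes as soon as `n` of its arguments are in the
Lagrangian `MM` spanned by `e1`, `e2`, and if `n - 1` arguments are in `MM` it depends only on the
classes of the other arguments modulo `MM`.
-/

noncomputable section
namespace Vale.Agent.P273.H213

open MvPolynomial Finset

/-- number of factors `e1`, `e2` of the five bivectors -/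
def ww : Fin 5 → ℕ := ![2, 1, 1, 0, 1]

/-- number of factors `e1`, `e2` of a monomial -/
def wd (m : Fin 5 → ℕ) : ℕ := ∑ l, m l * ww l

lemma wd_add (a b : Fin 5 →₀ ℕ) : wd (a + b : Fin 5 →₀ ℕ) = wd a + wd b := by
  simp [wd, add_mul, Finset.sum_add_distrib]

/-- `v` kills all monomials with at least `n` factors `e1`, `e2` -/
def Wt (n : ℕ) (v : VV) : Prop := ∀ m : Fin 5 →₀ ℕ, n ≤ wd m → v (monomial m 1) = 0

/-- **the finite check** -/
theorem Wt_fn {n : ℕ} {v : (Fin 5 → ℕ) → ℝ}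
    (h : ∀ m : Fin 5 → ℕ, ∑ l, m l = 7 → n ≤ wd m → v m = 0) : Wt n (fn v) := by
  intro m hm
  rw [fn_monomial]
  split_ifs with hd
  · exact h m (by rw [← hd, Finsupp.degree_eq_sum]) hm
  · rfl

theorem Wt.add {n : ℕ} {v w : VV} (hv : Wt n v) (hw : Wt n w) : Wt n (v + w) := fun m hm => by
  rw [LinearMap.add_apply, hv m hm, hw m hm, add_zero]

theorem Wt.sub {n : ℕ} {v w : VV} (hv : Wt n v) (hw : Wt n w) : Wt n (v - w) := fun m hm => by
  rw [LinearMap.sub_apply, hv m hm, hw m hm, sub_zero]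

theorem Wt.neg {n : ℕ} {v : VV} (hv : Wt n v) : Wt n (-v) := fun m hm => by
  rw [LinearMap.neg_apply, hv m hm, neg_zero]

theorem Wt.smul {n : ℕ} {v : VV} (c : ℝ) (hv : Wt n v) : Wt n (c • v) := fun m hm => by
  rw [LinearMap.smul_apply, hv m hm, smul_zero]

theorem Wt.zero (n : ℕ) : Wt n 0 := fun _ _ => rfl

theorem Wt.mono {n n' : ℕ} {v : VV} (hv : Wt n v) (h : n ≤ n') : Wt n' v := fun m hm =>
  hv m (h.trans hm)

/-- polynomials all of whose monomials have at least `n` factors `e1`, `e2` -/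
def FF (n : ℕ) : Submodule ℝ RR where
  carrier := {p | ∀ m, coeff m p ≠ 0 → n ≤ wd m}
  add_mem' {p q} hp hq m hm := by
    by_cases h : coeff m p = 0
    · refine hq m fun h' => hm ?_
      rw [coeff_add, h, h', add_zero]
    · exact hp m h
  zero_mem' m hm := absurd (coeff_zero m) hm
  smul_mem' c p hp m hm := by
    refine hp m fun h => hm ?_
    rw [coeff_smul, h, smul_zero]

lemma mem_FF {n : ℕ} {p : RR} : p ∈ FF n ↔ ∀ m, coeff m p ≠ 0 → n ≤ wd m := Iff.rfl

lemma FF_mono {n n' : ℕ} (h : n ≤ n') {p : RR} (hp : p ∈ FF n') : p ∈ FF n := fun m hm =>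
  h.trans (hp m hm)

lemma mem_FF_zero (p : RR) : p ∈ FF 0 := fun _ _ => Nat.zero_le _

lemma FF_mul {a b : ℕ} {p q : RR} (hp : p ∈ FF a) (hq : q ∈ FF b) : p * q ∈ FF (a + b) := by
  intro m hm
  rw [coeff_mul] at hm
  obtain ⟨x, hx, hne⟩ := Finset.exists_ne_zero_of_sum_ne_zero hm
  have h1 : coeff x.1 p ≠ 0 := left_ne_zero_of_mul hne
  have h2 : coeff x.2 q ≠ 0 := right_ne_zero_of_mul hne
  have h3 := mem_antidiagonal.1 hx
  rw [← h3, wd_add]
  exact add_le_add (hp _ h1) (hq _ h2)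

lemma FF_prod {ι : Type*} (s : Finset ι) (a : ι → ℕ) (p : ι → RR) (h : ∀ i ∈ s, p i ∈ FF (a i)) :
    ∏ i ∈ s, p i ∈ FF (∑ i ∈ s, a i) := by
  classical
  induction s using Finset.induction_on with
  | empty => simpa using mem_FF_zero 1
  | insert i s hi ih =>
    rw [Finset.prod_insert hi, Finset.sum_insert hi]
    exact FF_mul (h i (mem_insert_self i s)) (ih fun j hj => h j (mem_insert_of_mem hj))

lemma X_mem_FF (l : Fin 5) : (X l : RR) ∈ FF (ww l) := by
  intro m hm
  rw [coeff_X] at hm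
  split_ifs at hm with h
  · subst h
    fin_cases l <;> simp [wd, ww, Finsupp.single_apply]
  · exact absurd rfl hm

/-- a coefficient of weight `n` kills the polynomials in `FF n` -/
theorem Wt.kill {n : ℕ} {v : VV} (hv : Wt n v) {p : RR} (hp : p ∈ FF n) : v p = 0 := by
  rw [← support_sum_monomial_coeff p, map_sum]
  refine Finset.sum_eq_zero fun m hm => ?_
  have : (monomial m (coeff m p) : RR) = coeff m p • monomial m 1 := by
    rw [smul_monomial, smul_eq_mul, mul_one]
  rw [this, map_smul, hv m (hp m (mem_support_iff.1 hm)), smul_zero]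

theorem Wt_iff {n : ℕ} {v : VV} : Wt n v ↔ ∀ p ∈ FF n, v p = 0 := by
  refine ⟨fun h p hp => h.kill hp, fun h m hm => h _ fun m' hm' => ?_⟩
  rw [coeff_monomial] at hm'
  split_ifs at hm' with e
  · rwa [← e]
  · exact absurd rfl hm'

/-- the Lagrangian spanned by `e1`, `e2` -/
def MM : Submodule ℝ HH where
  carrier := {x | x 1 = 0 ∧ x 3 = 0}
  add_mem' {x y} hx hy := ⟨by rw [Pi.add_apply, hx.1, hy.1, add_zero],
    by rw [Pi.add_apply, hx.2, hy.2, add_zero]⟩
  zero_mem' := ⟨rfl, rfl⟩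
  smul_mem' c x hx := ⟨by rw [Pi.smul_apply, hx.1, smul_zero],
    by rw [Pi.smul_apply, hx.2, smul_zero]⟩

lemma mem_MM {x : HH} : x ∈ MM ↔ x 1 = 0 ∧ x 3 = 0 := Iff.rfl

lemma C_mul_mem {n : ℕ} (c : ℝ) {p : RR} (hp : p ∈ FF n) : C c * p ∈ FF n := by
  rw [← smul_eq_C_mul]; exact (FF n).smul_mem c hp

lemma pl_mem_left {x : HH} (y : HH) (hx : x ∈ MM) : pl x y ∈ FF 1 := by
  obtain ⟨h1, h3⟩ := mem_MM.1 hx
  have e : pl x y = C (x 0 * y 2 - x 2 * y 0) * X 0 + C (x 0 * y 3) * X 1 +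
      C (-(x 2 * y 1)) * X 2 + C (x 0 * y 1 - x 2 * y 3) * X 4 := by
    simp only [pl, h1, h3, map_sub, map_mul, map_neg, map_zero]; ring
  rw [e]
  exact (FF 1).add_mem ((FF 1).add_mem ((FF 1).add_mem
    (C_mul_mem _ (FF_mono (by decide) (X_mem_FF 0))) (C_mul_mem _ (X_mem_FF 1)))
    (C_mul_mem _ (X_mem_FF 2))) (C_mul_mem _ (X_mem_FF 4))

lemma pl_mem_right (x : HH) {y : HH} (hy : y ∈ MM) : pl x y ∈ FF 1 := by
  rw [pl_swap y x]; exact (FF 1).neg_mem (pl_mem_left x hy)

lemma pl_mem_both {x y : HH} (hx : x ∈ MM) (hy : y ∈ MM) : pl x y ∈ FF 2 := by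
  obtain ⟨h1, h3⟩ := mem_MM.1 hx
  obtain ⟨h1', h3'⟩ := mem_MM.1 hy
  have e : pl x y = C (x 0 * y 2 - x 2 * y 0) * X 0 := by
    simp only [pl, h1, h3, h1', h3', map_sub, map_mul, map_zero]; ring
  rw [e]
  exact C_mul_mem _ (X_mem_FF 0)

open Classical in
lemma pl_mem (x y : HH) :
    pl x y ∈ FF ((if x ∈ MM then 1 else 0) + (if y ∈ MM then 1 else 0)) := by
  by_cases hx : x ∈ MM <;> by_cases hy : y ∈ MM
  · rw [if_pos hx, if_pos hy]; exact pl_mem_both hx hy
  · rw [if_pos hx, if_neg hy]; exact pl_mem_left y hx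
  · rw [if_neg hx, if_pos hy]; exact pl_mem_right x hy
  · rw [if_neg hx, if_neg hy]; exact mem_FF_zero _

/-- **a coefficient of weight `n` kills `n` arguments in `MM`** -/
theorem TT_kill {n : ℕ} {v : VV} (hv : Wt n v) (m : Fin 7 ⊕ Fin 7 → HH)
    (S : Finset (Fin 7 ⊕ Fin 7)) (hS : n ≤ S.card) (hM : ∀ i ∈ S, m i ∈ MM) : TT v m = 0 := by
  classical
  rw [TT_apply]
  refine Finset.sum_eq_zero fun π _ => hv.kill (FF_mono ?_ (FF_prod univ
    (fun k => (if m (Sum.inl k) ∈ MM then 1 else 0) + (if m (Sum.inr (π k)) ∈ MM then 1 else 0)) _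
    fun k _ => pl_mem _ _))
  rw [Finset.sum_add_distrib, Equiv.sum_comp π (fun k => if m (Sum.inr k) ∈ MM then 1 else 0)]
  have h1 := Fintype.sum_sum_type (fun i : Fin 7 ⊕ Fin 7 => if m i ∈ MM then 1 else 0)
  rw [← h1, ← Finset.card_filter]
  exact hS.trans (Finset.card_le_card fun i hi => mem_filter.2 ⟨mem_univ i, hM i hi⟩)

/-- **with `n` arguments in `MM`, a coefficient of weight `n + 1` sees only the classes of the
other arguments modulo `MM`** -/
theorem TT_congr_mod {n : ℕ} {v : VV} (hv : Wt (n + 1) v) (m m' : Fin 7 ⊕ Fin 7 → HH)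
    (S : Finset (Fin 7 ⊕ Fin 7)) (hS : n ≤ S.card) (hM : ∀ i ∈ S, m i ∈ MM)
    (he : ∀ i ∈ S, m' i = m i) (hd : ∀ i, m' i - m i ∈ MM) : TT v m' = TT v m := by
  classical
  have key : ∀ T : Finset (Fin 7 ⊕ Fin 7), TT v (T.piecewise m' m) = TT v m := by
    intro T
    induction T using Finset.induction_on with
    | empty => rw [Finset.piecewise_empty]
    | insert j T hj ih =>
      rw [Finset.piecewise_insert]
      have e : m' j = m j + (m' j - m j) := by abel
      rw [e, MultilinearMap.map_update_add]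
      have e2 : Function.update (T.piecewise m' m) j (m j) = T.piecewise m' m := by
        rw [Function.update_eq_self_iff, Finset.piecewise_eq_of_notMem _ _ _ hj]
      rw [e2, ih, add_eq_left]
      by_cases hjS : j ∈ S
      · have e3 : m' j - m j = 0 := by rw [he j hjS, sub_self]
        rw [e3]
        exact MultilinearMap.map_coord_zero _ j (Function.update_self _ _ _)
      · refine TT_kill hv _ (insert j S) ?_ ?_
        · rw [Finset.card_insert_of_notMem hjS]; exact Nat.succ_le_succ hS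
        · intro i hi
          by_cases hij : i = j
          · subst hij; rw [Function.update_self]; exact hd i
          · rw [Function.update_of_ne hij]
            have hiS : i ∈ S := (mem_insert.1 hi).resolve_left hij
            by_cases hiT : i ∈ T
            · rw [Finset.piecewise_eq_of_mem _ _ _ hiT, he i hiS]; exact hM i hiS
            · rw [Finset.piecewise_eq_of_notMem _ _ _ hiT]; exact hM i hiS
  have := key univ
  rwa [Finset.piecewise_univ] at this

/-- transvections along `MM` raise the weight: on polynomials -/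
lemma sR_sub_mem {k : Fin 5} (hk : k = 0 ∨ k = 2 ∨ k = 4) (m : Fin 5 →₀ ℕ) :
    sR k (monomial m 1) - monomial m 1 ∈ FF (wd m + 1) := by
  have hX : ∀ l, sR k (X l) - X l ∈ FF (ww l + 1) := by
    intro l
    have h0 : (X 0 : RR) ∈ FF 2 := X_mem_FF 0
    have h1 : (X 1 : RR) ∈ FF 1 := X_mem_FF 1
    have h2 : (X 2 : RR) ∈ FF 1 := X_mem_FF 2
    have h4 : (X 4 : RR) ∈ FF 1 := X_mem_FF 4
    have hz : ∀ n, (0 : RR) ∈ FF n := fun n => (FF n).zero_mem
    have h5 : (X 1 + X 2 - 2 * X 4 : RR) ∈ FF 1 := by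
      have : (2 * X 4 : RR) = (2 : ℝ) • X 4 := by rw [smul_eq_C_mul, map_ofNat]
      rw [this]
      exact (FF 1).sub_mem ((FF 1).add_mem h1 h2) ((FF 1).smul_mem 2 h4)
    rcases hk with rfl | rfl | rfl
    · fin_cases l <;> simp [sR, sub, ww, h0, h1, h2]
    · fin_cases l <;> simp [sR, sub, ww, h0, h1, h2]
      have e : (X 3 + X 1 + X 2 - 2 * X 4 - X 3 : RR) = X 1 + X 2 - 2 * X 4 := by ring
      rw [e]; exact h5
    · fin_cases l <;> simp [sR, sub, ww, h0, h1, h2]
  have hmul : ∀ a b : ℕ, ∀ p q : RR, (p ∈ FF a ∧ sR k p - p ∈ FF (a + 1)) →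
      (q ∈ FF b ∧ sR k q - q ∈ FF (b + 1)) →
      (p * q ∈ FF (a + b) ∧ sR k (p * q) - p * q ∈ FF (a + b + 1)) := by
    intro a b p q hp hq
    refine ⟨FF_mul hp.1 hq.1, ?_⟩
    have e : sR k (p * q) - p * q = (p + (sR k p - p)) * (sR k q - q) + (sR k p - p) * q := by
      rw [map_mul]; ring
    rw [e]
    refine (FF _).add_mem ?_ ?_
    · exact FF_mul (a := a) (b := b + 1) ((FF a).add_mem hp.1 (FF_mono (Nat.le_succ a) hp.2)) hq.2
    · exact FF_mono (by omega) (FF_mul hp.2 hq.1)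
  have hpow : ∀ l (t : ℕ), ((X l : RR) ^ t ∈ FF (t * ww l) ∧
      sR k ((X l : RR) ^ t) - (X l : RR) ^ t ∈ FF (t * ww l + 1)) := by
    intro l t
    induction t with
    | zero => simpa using mem_FF_zero 1
    | succ t ih =>
      have := hmul _ _ _ _ ih ⟨X_mem_FF l, hX l⟩
      rwa [← pow_succ, ← Nat.succ_mul] at this
  have hprod : ∀ s : Finset (Fin 5), (∏ l ∈ s, (X l : RR) ^ m l ∈ FF (∑ l ∈ s, m l * ww l) ∧
      sR k (∏ l ∈ s, (X l : RR) ^ m l) - ∏ l ∈ s, (X l : RR) ^ m l ∈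
        FF (∑ l ∈ s, m l * ww l + 1)) := by
    intro s
    induction s using Finset.induction_on with
    | empty => simpa using mem_FF_zero 1
    | insert i s hi ih =>
      rw [Finset.prod_insert hi, Finset.sum_insert hi]
      exact hmul _ _ _ _ (hpow i _) ih
  have e : (monomial m 1 : RR) = ∏ l, (X l : RR) ^ m l := by
    rw [monomial_eq, Finsupp.prod_fintype _ _ (fun _ => pow_zero _), C_1, one_mul]
  rw [e]
  exact (hprod univ).2

lemma sR_sub_mem' {k : Fin 5} (hk : k = 0 ∨ k = 2 ∨ k = 4) {n : ℕ} {p : RR} (hp : p ∈ FF n) :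
    sR k p - p ∈ FF (n + 1) := by
  rw [← support_sum_monomial_coeff p, map_sum, ← Finset.sum_sub_distrib]
  refine (FF (n + 1)).sum_mem fun m hm => ?_
  have : (monomial m (coeff m p) : RR) = coeff m p • monomial m 1 := by
    rw [smul_monomial, smul_eq_mul, mul_one]
  rw [this, map_smul, ← smul_sub]
  exact (FF (n + 1)).smul_mem _ (FF_mono (Nat.succ_le_succ (hp m (mem_support_iff.1 hm)))
    (sR_sub_mem hk m))

/-- **the transvections along `MM` preserve the weight, and `s - 1` raises it** -/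
theorem Wt.sV_sub {k : Fin 5} (hk : k = 0 ∨ k = 2 ∨ k = 4) {n : ℕ} {v : VV}
    (hv : Wt (n + 1) v) : Wt n (sV k v - v) := by
  rw [Wt_iff]
  intro p hp
  rw [LinearMap.sub_apply, sV_apply, ← map_sub]
  exact hv.kill (sR_sub_mem' hk hp)

end Vale.Agent.P273.H213
end
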